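import Vale.Agent.P223F.Tr
import Vale.Agent.P223Y.Eqv

/-!
# P223F: the mass transport principle
-/

open MeasureTheory Filter Topology Set
open Vale.Agent.P366M Vale.Agent.P223Y

noncomputable section

namespace Vale.Agent.P223F

variable {n : ℕ} {X : Type} [Mf0 n X] {Γ : Type} [Group Γ] [MulAction Γ X] {F : Fr Γ}
  {V : Type} {K D : Set X} {A : Set F.Ω} {ν ν' : F.Ω → Measure X} {G G' H : F.Ω → X → ℝ}
  {χ χ' : X → ℝ} {p : F.Ω → X → V}

theorem vol_congr {g g' : Fld n X} (hK : MeasurableSet K) (h : ∀ x ∈ K, g x = g' x) :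
    (vol g).restrict K = (vol g').restrict K := by
  ext s hs
  have m := hs.inter hK
  simp only [Measure.restrict_apply hs, vol, Measure.sum_apply _ m, Measure.restrict_apply m]
  refine tsum_congr fun k => ?_
  have m' := m.inter (meas_pc k)
  rw [volC_apply (ch_mem _) m', volC_apply (ch_mem _) m']
  exact setLIntegral_congr_fun ((measEmb_symm (ch_mem _)).measurable m') fun y hy => by
    simp only [dens_rep, mat, h _ hy.1.2]

/-- the volume of a random metric -/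
theorem rm_vol (d : Deck X Γ) {g : F.Ω → Fld n X} (hI : Inv Γ g) (hT : Tr g)
    (hm : ∀ ω, Met (g ω)) : Rm F fun ω => vol (g ω) where
  eqv γ ω := by
    rw [← (d.cm γ).map_vol (hm (γ • ω)) (MulAction.bijective _)]
    simp only [hI γ ω]
  tr _ hK ω₀ := (hT.cpt hK ω₀).mono fun _ => vol_congr hK.measurableSet

theorem lb_one (p : F.Ω → X → V) : lb (1 : Γ) p = p := by
  funext ω x; simp [lb]

theorem lb_smul (δ γ : Γ) (p : F.Ω → X → V) (ω : F.Ω) (x : X) :
    lb (δ * γ) p (δ • ω) (δ • x) = lb γ p ω x := by simp [lb, mul_smul]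

theorem lb_eq (γ : Γ) (p : F.Ω → X → V) (ω : F.Ω) : lb γ p ω = tl γ (p (γ⁻¹ • ω)) := rfl

theorem Inv.lb (h : Inv Γ p) (γ : Γ) : lb γ p = p := funext fun _ => funext fun _ => h _ _ _

/-- the whole labelled family has finite range -/
theorem Tr.fam [Zero V] (d : Deck X Γ) (h : Tr p) (hK : IsCompact K) (cs : Cs p K) :
    Tr fun ω x (γ : Γ) => P223F.lb γ p ω x := fun ω₀ x₀ => by
  obtain ⟨T, hT⟩ := ev_fin d hK x₀
  filter_upwards [(eventually_all_finset T).2 fun γ _ => h.lb d γ ω₀ x₀, hT.prod_inr _] with q a b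
  funext γ
  by_cases c : γ⁻¹ • q.2 ∈ K
  · exact a γ (b γ c)
  · exact (cs _ _ c).trans (cs _ _ c).symm

theorem inv_finsum [AddCommMonoid V] (p : F.Ω → X → V) :
    Inv Γ fun ω x => ∑ᶠ γ : Γ, lb γ p ω x := fun δ ω x => by
  simp only
  rw [← finsum_comp_equiv (Equiv.mulLeft δ)]
  simp only [Equiv.coe_mulLeft, lb_smul]

theorem tr_un (d : Deck X Γ) (hA : IsClopen A) (hD : IsCompact D) :
    Tr fun ω x => x ∈ Un Γ A D ω := fun ω₀ x₀ => by
  obtain ⟨T, hT⟩ := ev_fin d hD x₀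
  filter_upwards [((eventually_all_finset T).2 fun γ _ => ((lc_mem hA).comp_continuous
    (continuous_const_smul γ⁻¹)).eventually_eq ω₀).prod_inl _, hT.prod_inr _] with q a b
  exact propext (exists_congr fun γ => and_congr_left fun c => (a γ (b γ c)).to_iff)

/-- translations as homeomorphisms -/
def hm (d : Deck X Γ) (γ : Γ) : X ≃ₜ X := ⟨MulAction.toPerm γ, d.cont γ, d.cont γ⁻¹⟩

theorem Rm.integral (d : Deck X Γ) (hν : Rm F ν) (γ : Γ) (ω : F.Ω) (f : X → ℝ) :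
    ∫ x, f x ∂ν (γ • ω) = ∫ x, f (γ • x) ∂ν ω := by
  rw [hν.eqv]
  exact (hm d γ).measurableEmbedding.integral_map f

theorem int_lc (hν : Rm F ν) (h : Tr H) (hK : IsCompact K) (cs : Cs H K) :
    IsLocallyConstant fun ω => ∫ x, H ω x ∂ν ω :=
  (IsLocallyConstant.iff_eventually_eq _).2 fun ω₀ => by
    filter_upwards [hν.tr K hK ω₀, h.cpt hK ω₀] with ω a b
    rw [← setIntegral_eq_integral_of_forall_compl_eq_zero (cs ω),
      ← setIntegral_eq_integral_of_forall_compl_eq_zero (cs ω₀), a]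
    exact setIntegral_congr_fun hK.measurableSet b

theorem lc_int {f : F.Ω → ℝ} (h : IsLocallyConstant f) : Integrable f F.μ :=
  h.continuous.integrable_of_hasCompactSupport (.of_compactSpace _)

namespace Li

theorem of_cont (h : Tr G) (c : ∀ ω, Continuous (G ω)) (l : ∀ ω, IsLocallyFiniteMeasure (ν ω)) :
    Li F ν G := ⟨h, fun ω => (c ω).locallyIntegrable⟩

theorem add (h : Li F ν G) (h' : Li F ν G') : Li F ν fun ω x => G ω x + G' ω x :=
  ⟨h.tr.map₂ h'.tr fun _ a b => a + b, fun ω => (h.li ω).add (h'.li ω)⟩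

theorem sub (h : Li F ν G) (h' : Li F ν G') : Li F ν fun ω x => G ω x - G' ω x :=
  ⟨h.tr.map₂ h'.tr fun _ a b => a - b, fun ω => (h.li ω).sub (h'.li ω)⟩

theorem mul (h : Li F ν G) (t : Tr H) (c : ∀ ω, Continuous (H ω)) :
    Li F ν fun ω x => H ω x * G ω x :=
  ⟨t.map₂ h.tr fun _ a b => a * b, fun ω => (h.li ω).continuous_mul (c ω)⟩

theorem abs (h : Li F ν G) : Li F ν fun ω x => |G ω x| :=
  ⟨h.tr.map fun _ a => |a|, fun ω x => (h.li ω x).imp fun _ q => ⟨q.1, Integrable.abs q.2⟩⟩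

theorem sum {ι : Type} (s : Finset ι) {G : ι → F.Ω → X → ℝ} (h : ∀ i ∈ s, Li F ν (G i)) :
    Li F ν fun ω x => ∑ i ∈ s, G i ω x :=
  ⟨fun ω₀ x₀ => ((eventually_all_finset s).2 fun i q => (h i q).tr ω₀ x₀).mono fun _ =>
    Finset.sum_congr rfl, fun ω => locallyIntegrable_finsetSum s fun i q => (h i q).li ω⟩

theorem ind (h : Li F ν G) {S : F.Ω → Set X} (t : Tr fun ω x => x ∈ S ω)
    (m : ∀ ω, MeasurableSet (S ω)) : Li F ν fun ω => (S ω).indicator (G ω) :=
  ⟨fun ω₀ x₀ => ((h.tr ω₀ x₀).and (t ω₀ x₀)).mono fun _ q => by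
    classical
    simp only [indicator_apply, q.1]
    exact if_congr q.2.to_iff rfl rfl, fun ω => (h.li ω).indicator (m ω)⟩

theorem lb (d : Deck X Γ) (hν : Rm F ν) (h : Li F ν G) (γ : Γ) : Li F ν (lb γ G) :=
  ⟨h.tr.lb d γ, fun ω => by
    rw [← smul_inv_smul γ ω, hν.eqv]
    refine (locallyIntegrable_map_homeomorph (hm d γ)).2 ?_
    have : P223F.lb γ G (γ • γ⁻¹ • ω) ∘ hm d γ = G (γ⁻¹ • ω) := funext fun x => by
      change G (γ⁻¹ • γ • γ⁻¹ • ω) (γ⁻¹ • γ • x) = _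
      simp only [inv_smul_smul]
    exact this ▸ h.li _⟩

theorem finsum (d : Deck X Γ) (hν : Rm F ν) (h : Li F ν H) (hK : IsCompact K) (cs : Cs H K) :
    Li F ν fun ω x => ∑ᶠ γ : Γ, P223F.lb γ H ω x :=
  ⟨(h.tr.fam d hK cs).map fun _ a => ∑ᶠ γ, a γ, fun ω x₀ => by
    obtain ⟨T, hT⟩ := ev_fin d hK x₀
    obtain ⟨U, u1, u2⟩ := (sum T fun γ _ => h.lb d hν γ).li ω x₀
    obtain ⟨O, o1, o2, o3⟩ := mem_nhds_iff.1 (inter_mem u1 hT)
    refine ⟨O, o2.mem_nhds o3, (u2.mono_set fun x q => (o1 q).1).congr_fun (fun x q => ?_)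
      o2.measurableSet⟩
    exact (finsum_eq_sum_of_support_subset _ fun γ c =>
      (o1 q).2 γ (by_contra fun e => c (cs _ _ e))).symm⟩

theorem int (h : Li F ν H) (hK : IsCompact K) (cs : Cs H K) (ω : F.Ω) : Integrable (H ω) (ν ω) :=
  (integrableOn_iff_integrable_of_support_subset fun x q => by_contra fun e => q (cs ω x e)).1
    ((h.li ω).integrableOn_isCompact hK)

theorem wt (h : Li F ν G) (hχ : Wt Γ χ) : Li F ν fun ω x => χ x * G ω x :=
  h.mul (tr_const χ) fun _ => hχ.sm.cont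

end Li

theorem cs_wt (χ : X → ℝ) (G : F.Ω → X → ℝ) : Cs (fun ω x => χ x * G ω x) (tsupport χ) :=
  fun _ _ q => by simp [image_eq_zero_of_notMem_tsupport q]

section Ex

variable (hν : Rm F ν) (hχ : Wt Γ χ)
include hν hχ

theorem Li.ex_lc (h : Li F ν G) : IsLocallyConstant fun ω => ∫ x, χ x * G ω x ∂ν ω :=
  int_lc hν (h.wt hχ).tr hχ.cs (cs_wt χ G)

theorem Ex_add (h : Li F ν G) (h' : Li F ν G') :
    Ex F χ ν (fun ω x => G ω x + G' ω x) = Ex F χ ν G + Ex F χ ν G' := by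
  rw [Ex, Ex, Ex, ← integral_add (lc_int (h.ex_lc hν hχ)) (lc_int (h'.ex_lc hν hχ))]
  refine integral_congr_ae (.of_forall fun ω => ?_)
  simp only [mul_add]
  exact integral_add ((h.wt hχ).int hχ.cs (cs_wt χ G) ω) ((h'.wt hχ).int hχ.cs (cs_wt χ G') ω)

omit hν hχ in
theorem Ex_const_mul (c : ℝ) (G : F.Ω → X → ℝ) :
    Ex F χ ν (fun ω x => c * G ω x) = c * Ex F χ ν G := by
  simp only [Ex, mul_left_comm _ c, integral_const_mul]

theorem Ex_sub (h : Li F ν G) (h' : Li F ν G') :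
    Ex F χ ν (fun ω x => G ω x - G' ω x) = Ex F χ ν G - Ex F χ ν G' := by
  rw [eq_sub_iff_add_eq, ← Ex_add hν hχ (h.sub h') h']
  simp only [sub_add_cancel]

theorem Ex_sum {ι : Type} (s : Finset ι) {G : ι → F.Ω → X → ℝ} (h : ∀ i ∈ s, Li F ν (G i)) :
    Ex F χ ν (fun ω x => ∑ i ∈ s, G i ω x) = ∑ i ∈ s, Ex F χ ν (G i) := by
  simp only [Ex]
  rw [← integral_finsetSum s fun i q => lc_int ((h i q).ex_lc hν hχ)]
  refine integral_congr_ae (.of_forall fun ω => ?_)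
  simp only [Finset.mul_sum]
  exact integral_finsetSum s fun i q => ((h i q).wt hχ).int hχ.cs (cs_wt χ _) ω

omit hν in
theorem Ex_nonneg (h : ∀ ω x, 0 ≤ G ω x) : 0 ≤ Ex F χ ν G :=
  integral_nonneg fun ω => integral_nonneg fun x => mul_nonneg (hχ.nn x) (h ω x)

theorem Ex_mono (h : Li F ν G) (h' : Li F ν G') (le : ∀ ω x, G ω x ≤ G' ω x) :
    Ex F χ ν G ≤ Ex F χ ν G' := by
  rw [← sub_nonneg, ← Ex_sub hν hχ h' h]
  exact Ex_nonneg hχ fun ω x => sub_nonneg.2 (le ω x)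

theorem abs_Ex_le (h : Li F ν G) (h' : Li F ν G') (le : ∀ ω x, |G ω x| ≤ G' ω x) :
    |Ex F χ ν G| ≤ Ex F χ ν G' := by
  refine abs_le.2 ⟨?_, Ex_mono hν hχ h h' fun ω x => (le_abs_self _).trans (le ω x)⟩
  rw [← neg_one_mul, ← Ex_const_mul]
  exact Ex_mono hν hχ (h'.mul (tr_const fun _ => -1) fun _ => continuous_const) h fun ω x => by
    linarith [neg_abs_le (G ω x), le ω x]

/-- **mass transport** -/
theorem mt (d : Deck X Γ) (h : Li F ν H) (hK : IsCompact K) (cs : Cs H K) :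
    Ex F χ ν (fun ω x => ∑ᶠ γ : Γ, lb γ H ω x) = ∫ ω, ∫ x, H ω x ∂ν ω ∂F.μ := by
  have hS := proper d hK hχ.cs
  have l : ∀ γ : Γ, Li F ν fun ω y => χ (γ • y) * H ω y := fun γ =>
    h.mul (tr_const _) fun _ => hχ.sm.cont.comp (d.cont γ)
  have c : ∀ γ : Γ, Cs (fun ω y => χ (γ • y) * H ω y) K := fun γ ω x q => by simp [cs ω x q]
  have e : Ex F χ ν (fun ω x => ∑ᶠ γ : Γ, lb γ H ω x) =
      Ex F χ ν fun ω x => ∑ γ ∈ hS.toFinset, lb γ H ω x := by
    refine integral_congr_ae (.of_forall fun ω => integral_congr_ae (.of_forall fun x => ?_))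
    by_cases h0 : χ x = 0
    · simp [h0]
    exact congrArg _ (finsum_eq_sum_of_support_subset _ fun γ q => hS.mem_toFinset.2
      ⟨γ⁻¹ • x, by_contra fun e => q (cs _ _ e), by simpa using subset_tsupport _ h0⟩)
  have e2 : ∀ γ : Γ, Ex F χ ν (lb γ H) = ∫ ω, ∫ y, χ (γ • y) * H ω y ∂ν ω ∂F.μ := fun γ => by
    rw [Ex, ← integral_smul_eq_self (g := γ)]
    simp only [hν.integral d, lb, inv_smul_smul]
  rw [e, Ex_sum hν hχ _ fun γ _ => h.lb d hν γ]
  simp only [e2]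
  rw [← integral_finsetSum _ fun γ _ => lc_int (int_lc hν (l γ).tr hK (c γ))]
  refine integral_congr_ae (.of_forall fun ω => ?_)
  simp only
  rw [← integral_finsetSum _ fun γ _ => (l γ).int hK (c γ) ω]
  refine integral_congr_ae (.of_forall fun x => ?_)
  by_cases q : x ∈ K
  · have h1 := hχ.sum x
    rw [← finsum_comp_equiv (Equiv.inv Γ)] at h1
    simp only [tl, Equiv.inv_apply, inv_inv] at h1
    simp only
    rw [← Finset.sum_mul, ← finsum_eq_sum_of_support_subset, h1, one_mul]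
    exact fun γ k => hS.mem_toFinset.2 ⟨x, q, subset_tsupport _ k⟩
  · simp [cs ω x q]

/-- the expectation of an invariant function does not depend on the weight -/
theorem Ex_wt (d : Deck X Γ) (hχ' : Wt Γ χ') (h : Li F ν G) (hI : Inv Γ G) :
    Ex F χ ν G = Ex F χ' ν G := by
  rw [Ex.eq_1 F χ', ← mt hν hχ d (h.wt hχ') hχ'.cs (cs_wt χ' G)]
  congr 1
  funext ω x
  have : ∀ γ : Γ, lb γ (fun ω x => χ' x * G ω x) ω x = tl γ χ' x * G ω x := fun γ =>
    congrArg _ (hI _ _ _)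
  simp only [this]
  rw [← finsum_mul, hχ'.sum, one_mul]

/-- the mass of the union of the translates -/
theorem Ex_un (d : Deck X Γ) (hA : IsClopen A) (hD : IsCompact D) (hs : Sep Γ A D) (h : Li F ν G)
    (hI : Inv Γ G) : Ex F χ ν (fun ω => (Un Γ A D ω).indicator (G ω)) =
      ∫ ω in A, ∫ x in D, G ω x ∂ν ω ∂F.μ := by
  classical
  have l := h.ind (S := fun ω => {x | ω ∈ A ∧ x ∈ D}) (tr_lc (lc_mem hA) fun a x => a ∧ x ∈ D)
    fun ω => (MeasurableSet.const _).inter hD.measurableSet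
  have := mt hν hχ d l hD fun ω x q => indicator_of_notMem (fun k => q k.2) _
  rw [← integral_indicator hA.isClosed.measurableSet]
  convert this using 2
  · funext ω x
    simp only [lb, indicator, mem_ofPred_eq, hI _ ω x]
    split_ifs with q
    · obtain ⟨γ, a, b⟩ := q
      rw [finsum_eq_single _ γ fun δ e => if_neg fun k => e (hs.eq k.1 k.2 a b), if_pos ⟨a, b⟩]
    · exact (finsum_eq_zero_of_forall_eq_zero fun γ => if_neg fun k => q ⟨γ, k⟩).symm
  · funext ω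
    by_cases q : ω ∈ A
    · simp only [indicator_of_mem q, q, true_and, ← integral_indicator hD.measurableSet]
      rfl
    · simp [q]

/-- **the change of the mass under a simultaneous local operation** -/
theorem Ex_locop (hν' : Rm F ν') (d : Deck X Γ) (hA : IsClopen A) (hD : IsCompact D)
    (hs : Sep Γ A D) (h : Li F ν G) (hI : Inv Γ G) (h' : Li F ν' G') (hI' : Inv Γ G')
    (e1 : ∀ ω, (ν' ω).restrict (Un Γ A D ω)ᶜ = (ν ω).restrict (Un Γ A D ω)ᶜ)
    (e2 : ∀ ω, ∀ x ∉ Un Γ A D ω, G' ω x = G ω x) : Ex F χ ν' G' - Ex F χ ν G =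
      ∫ ω in A, ∫ x in D, G' ω x ∂ν' ω ∂F.μ - ∫ ω in A, ∫ x in D, G ω x ∂ν ω ∂F.μ := by
  have m := fun ω => (isClosed_un d hA.isClosed hD ω).measurableSet
  rw [← Ex_un hν hχ d hA hD hs h hI, ← Ex_un hν' hχ d hA hD hs h' hI', sub_eq_sub_iff_sub_eq_sub,
    ← Ex_sub hν hχ h (h.ind (tr_un d hA hD) m), ← Ex_sub hν' hχ h' (h'.ind (tr_un d hA hD) m)]
  refine integral_congr_ae (.of_forall fun ω => ?_)
  have k : ∀ (G : X → ℝ) x, χ x * (G x - (Un Γ A D ω).indicator G x) =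
      (Un Γ A D ω)ᶜ.indicator (fun x => χ x * G x) x := fun G x => by
    by_cases q : x ∈ Un Γ A D ω <;> simp [q]
  simp only [k, integral_indicator (m ω).compl, e1]
  exact setIntegral_congr_fun (m ω).compl fun x q => by simp only [e2 ω x q]

end Ex

end Vale.Agent.P223F
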