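import Vale.Agent.P223F.Defs
import Mathlib.MeasureTheory.Measure.Haar.Unique
import Mathlib.Topology.Instances.ZMod

/-!
# P223F: every group has a frame
-/

open MeasureTheory Filter Topology Set

noncomputable section

namespace Vale.Agent.P223F

variable {Γ : Type} [Group Γ]

/-- the order of a finite cyclic quotient of the group generated by `γ` -/
def od (γ : Γ) : ℕ := if orderOf γ = 0 then 2 else orderOf γ

instance (γ : Γ) : NeZero (od γ) := ⟨by unfold od; split_ifs with h <;> simp [h]⟩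

theorem exists_c0 (γ : Γ) : ∃ c : Γ → ZMod (od γ), ∀ x, c (x * γ) = c x + 1 := by
  have m : ∀ x : Γ, ∃ j : ℤ, γ ^ j = (QuotientGroup.mk x : Γ ⧸ Subgroup.zpowers γ).out⁻¹ * x :=
    fun x => Subgroup.mem_zpowers_iff.1 (QuotientGroup.eq.1 (QuotientGroup.out_eq' _))
  choose j hj using m
  refine ⟨fun x => (j x : ZMod (od γ)), fun x => ?_⟩
  have e : (QuotientGroup.mk (x * γ) : Γ ⧸ Subgroup.zpowers γ) = QuotientGroup.mk x :=
    QuotientGroup.mk_mul_of_mem x (Subgroup.mem_zpowers γ)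
  have h : γ ^ j (x * γ) = γ ^ (j x + 1) := by rw [zpow_add_one, hj, hj, e, mul_assoc]
  have d : (od γ : ℤ) ∣ orderOf γ := by
    unfold od
    split_ifs with q
    · simp [q]
    · rfl
  have := (ZMod.intCast_eq_intCast_iff _ _ _).2 ((zpow_eq_zpow_iff_modEq.1 h).of_dvd d)
  simpa using this

/-- the group of the configurations which are constant along the cosets -/
def G0 (Γ : Type) [Group Γ] : AddSubgroup (∀ γ : Γ, Γ → ZMod (od γ)) where
  carrier := {c | ∀ γ x, c γ (x * γ) = c γ x}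
  add_mem' ha hb γ x := by simp only [Pi.add_apply, ha γ x, hb γ x]
  zero_mem' _ _ := rfl
  neg_mem' ha γ x := by simp only [Pi.neg_apply, ha γ x]

/-- the linear part of the action -/
def sh0 (g : Γ) : G0 Γ →+ G0 Γ where
  toFun a := ⟨fun γ x => a.1 γ (g⁻¹ * x), fun γ x => by simp only [← mul_assoc, a.2 γ _]⟩
  map_zero' := rfl
  map_add' _ _ := rfl

theorem cont_sh0 (g : Γ) : Continuous (sh0 g) :=
  Continuous.subtype_mk (f := fun (a : G0 Γ) γ x => a.1 γ (g⁻¹ * x)) (continuous_pi fun γ =>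
    continuous_pi fun x => (continuous_apply_apply γ (g⁻¹ * x)).comp continuous_subtype_val) _

theorem exists_fr (Γ : Type) [Group Γ] : Nonempty (Fr Γ) := by
  choose c hc using exists_c0 (Γ := Γ)
  let b : Γ → G0 Γ := fun g => ⟨fun γ x => c γ (g⁻¹ * x) - c γ x, fun γ x => by
    simp only [← mul_assoc, hc]; ring⟩
  let act : MulAction Γ (G0 Γ) :=
    { smul g a := b g + sh0 g a
      one_smul a := Subtype.ext (funext fun γ => funext fun x => by
        change c γ (1⁻¹ * x) - c γ x + a.1 γ (1⁻¹ * x) = _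
        simp)
      mul_smul g h a := Subtype.ext (funext fun γ => funext fun x => by
        change c γ ((g * h)⁻¹ * x) - c γ x + a.1 γ ((g * h)⁻¹ * x) = c γ (g⁻¹ * x) - c γ x +
          (c γ (h⁻¹ * (g⁻¹ * x)) - c γ (g⁻¹ * x) + a.1 γ (h⁻¹ * (g⁻¹ * x)))
        rw [mul_inv_rev, mul_assoc]; ring) }
  have cl : IsClosed (G0 Γ : Set (∀ γ : Γ, Γ → ZMod (od γ))) := by
    change IsClosed {c : ∀ γ : Γ, Γ → ZMod (od γ) | ∀ γ x, c γ (x * γ) = c γ x}
    simp only [ofPred_forall]
    exact isClosed_iInter fun γ => isClosed_iInter fun x => isClosed_eq (by fun_prop) (by fun_prop)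
  have : CompactSpace (G0 Γ) := isCompact_iff_compactSpace.1 cl.isCompact
  let : MeasurableSpace (G0 Γ) := borel _
  have : BorelSpace (G0 Γ) := ⟨rfl⟩
  let μ : Measure (G0 Γ) := Measure.addHaarMeasure ⊤
  have : IsProbabilityMeasure μ := ⟨Measure.addHaarMeasure_self⟩
  have : ContinuousConstSMul Γ (G0 Γ) := ⟨fun g => continuous_const.add (cont_sh0 g)⟩
  have : SMulInvariantMeasure Γ (G0 Γ) μ := ⟨fun g s hs =>
    ((measurePreserving_add_left μ (b g)).comp (AddMonoidHom.measurePreserving (cont_sh0 g)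
      (fun a => ⟨sh0 g⁻¹ a, Subtype.ext (funext fun γ => funext fun x => by
        change a.1 γ (g⁻¹⁻¹ * (g⁻¹ * x)) = _
        simp)⟩) rfl)).measure_preimage hs.nullMeasurableSet⟩
  refine ⟨{ Ω := G0 Γ, μ := μ, free := fun g a h => ?_ }⟩
  have h1 : c g (g⁻¹ * g) - c g g + a.1 g (g⁻¹ * g) = a.1 g g :=
    congrFun (congrFun (congrArg Subtype.val h) g) g
  have h2 := hc g 1
  have h3 := a.2 g 1
  rw [one_mul] at h2 h3
  rw [inv_mul_cancel, h2, h3] at h1
  have h4 : ((1 : ℕ) : ZMod (od g)) = 0 := by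
    rw [Nat.cast_one]; linear_combination -h1
  have h5 := Nat.dvd_one.1 ((ZMod.natCast_eq_zero_iff _ _).1 h4)
  unfold od at h5
  split_ifs at h5 with q
  · simp at h5
  · exact orderOf_eq_one_iff.1 h5

end Vale.Agent.P223F
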