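import Vale.Agent.P223Y.Defs

/-!
# P223F: the algebra of the form of a cocycle
-/

open Function Finset
open Vale.Agent.P223Y

noncomputable section

namespace Vale.Agent.P223F

variable {n : ℕ} {Γ : Type} {a : Fin n → Γ → Fin n → ℝ} {T : Finset Γ}

/-- the determinant of the rows with the labels `l` -/
def dt (a : Fin n → Γ → Fin n → ℝ) (l : Fin n → Γ) : ℝ := (Matrix.of fun k => a k (l k)).det

/-- the form of the weights `h` on labelled rows -/
def Mr (h : (Fin n → Γ) → ℝ) (a : Fin n → Γ → Fin n → ℝ) : ℝ := ∑ᶠ l, h l * dt a l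

theorem dt_zero {l : Fin n → Γ} (k : Fin n) (h : a k (l k) = 0) : dt a l = 0 :=
  Matrix.det_eq_zero_of_row_eq_zero k (congrFun h)

/-- the determinant as a linear function of one row -/
def dl (a : Fin n → Γ → Fin n → ℝ) (l : Fin n → Γ) (j : Fin n) : (Fin n → ℝ) →ₗ[ℝ] ℝ :=
  Matrix.detRowAlternating.toMultilinearMap.toLinearMap (fun k => a k (l k)) j

theorem dt_update (j : Fin n) (u : Γ → Fin n → ℝ) (l : Fin n → Γ) :
    dt (update a j u) l = dl a l j (u (l j)) :=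
  congrArg Matrix.det (funext fun k => by
    by_cases q : k = j
    · subst q; funext i; simp
    · funext i; simp [q])

theorem dt_update' (j : Fin n) (l : Fin n → Γ) (γ : Γ) : dt a (update l j γ) = dl a l j (a j γ) :=
  congrArg Matrix.det (funext fun k => by
    by_cases q : k = j
    · subst q; funext i; simp
    · funext i; simp [q])

theorem fs_eq {Φ : (Fin n → Γ) → ℝ} (h : ∀ l, Φ l ≠ 0 → ∀ k, l k ∈ T) :
    ∑ᶠ l, Φ l = ∑ l ∈ Fintype.piFinset fun _ => T, Φ l :=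
  finsum_eq_sum_of_support_subset _ fun l q => mem_coe.2 (Fintype.mem_piFinset.2 (h l q))

theorem Mr_eq (h : (Fin n → Γ) → ℝ) (hT : ∀ k γ, a k γ ≠ 0 → γ ∈ T) :
    Mr h a = ∑ l ∈ Fintype.piFinset fun _ => T, h l * dt a l :=
  fs_eq fun _ q k => hT k _ fun e => q (by rw [dt_zero k e, mul_zero])

theorem exists_T (hf : ∀ k, (support (a k)).Finite) : ∃ T : Finset Γ, ∀ k γ, a k γ ≠ 0 → γ ∈ T :=
  ⟨(Set.finite_iUnion hf).toFinset, fun k _ q => (Set.Finite.mem_toFinset _).2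
    (Set.mem_iUnion.2 ⟨k, q⟩)⟩

theorem Mr_free {h : (Fin n → Γ) → ℝ} (hT : ∀ k γ, a k γ ≠ 0 → γ ∈ T) (j : Fin n)
    (hh : ∀ l γ, h (update l j γ) = h l) (h0 : ∑ᶠ γ, a j γ = 0) : Mr h a = 0 := by
  classical
  rw [finsum_eq_sum_of_support_subset _ fun γ q => hT j γ q] at h0
  have m : ∀ l ∈ Fintype.piFinset fun _ : Fin n => T, ∀ γ ∈ T,
      update l j γ ∈ Fintype.piFinset fun _ : Fin n => T := fun l p γ q =>
    Fintype.mem_piFinset.2 fun k => by
      by_cases e : k = j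
      · simpa [e] using q
      · simpa [e] using Fintype.mem_piFinset.1 p k
  have key : ∑ l ∈ Fintype.piFinset fun _ => T, ∑ _γ ∈ T, h l * dt a l =
      ∑ l ∈ Fintype.piFinset fun _ => T, ∑ γ ∈ T, h (update l j γ) * dt a (update l j γ) := by
    rw [← sum_product', ← sum_product']
    refine sum_nbij' (fun p => (update p.1 j p.2, p.1 j)) (fun p => (update p.1 j p.2, p.1 j))
      ?_ ?_ (by simp) (by simp) (by simp) <;>
    exact fun p q => mem_product.2 ⟨m _ (mem_product.1 q).1 _ (mem_product.1 q).2,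
      Fintype.mem_piFinset.1 (mem_product.1 q).1 j⟩
  simp only [hh, dt_update', ← mul_sum, ← map_sum, h0, map_zero, mul_zero, sum_const_zero, sum_const,
    nsmul_eq_mul] at key
  rw [Mr_eq h hT]
  rcases T.eq_empty_or_nonempty with rfl | q
  · exact sum_eq_zero fun l p => by simpa using Fintype.mem_piFinset.1 p j
  · simp only [mul_left_comm _ (#T : ℝ), ← mul_sum] at key
    exact (mul_eq_zero.1 key).resolve_left (Nat.cast_ne_zero.2 q.card_pos.ne')

theorem Mr_sum {ι : Type} (s : Finset ι) (h : ι → (Fin n → Γ) → ℝ)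
    (hT : ∀ k γ, a k γ ≠ 0 → γ ∈ T) : Mr (fun l => ∑ i ∈ s, h i l) a = ∑ i ∈ s, Mr (h i) a := by
  simp only [Mr_eq _ hT, sum_mul]
  exact sum_comm

theorem supp_update (hT : ∀ k γ, a k γ ≠ 0 → γ ∈ T) (j : Fin n) {u : Γ → Fin n → ℝ}
    (hu : ∀ γ, u γ ≠ 0 → γ ∈ T) (k : Fin n) (γ : Γ) (q : update a j u k γ ≠ 0) : γ ∈ T := by
  by_cases e : k = j
  · exact hu γ (by simpa [e] using q)
  · exact hT k γ (by simpa [e] using q)

theorem Mr_lin {ι : Type} (s : Finset ι) (h : (Fin n → Γ) → ℝ) (hT : ∀ k γ, a k γ ≠ 0 → γ ∈ T)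
    (j : Fin n) (r : ι → ℝ) {u : ι → Γ → Fin n → ℝ} (hu : ∀ i γ, u i γ ≠ 0 → γ ∈ T) :
    Mr h (update a j fun γ => ∑ i ∈ s, r i • u i γ) = ∑ i ∈ s, r i * Mr h (update a j (u i)) := by
  rw [Mr_eq h (supp_update hT j fun γ q => by
    obtain ⟨i, -, k⟩ := exists_ne_zero_of_sum_ne_zero q
    exact hu i γ (right_ne_zero_of_smul k))]
  simp only [Mr_eq h (supp_update hT j (hu _)), dt_update, map_sum, map_smul, mul_sum, smul_eq_mul,
    mul_left_comm (h _)]
  exact sum_comm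

variable [Group Γ] {c : (Fin (n + 1) → Γ) → ℝ}

/-- the form does not depend on the base label -/
theorem Mr_base (hc : Coc c) (hf : ∀ k, (support (a k)).Finite) (h0 : ∀ k, ∑ᶠ γ, a k γ = 0)
    (b b' : Γ) : Mr (fun l => c (Fin.cons b l)) a = Mr (fun l => c (Fin.cons b' l)) a := by
  obtain ⟨T, hT⟩ := exists_T hf
  have := Mr_sum univ (fun (k : Fin (n + 2)) l =>
    (-1 : ℝ) ^ (k : ℕ) * c (Fin.cons b (Fin.cons b' l : Fin (n + 1) → Γ) ∘ k.succAbove)) hT
  simp only [hc.coc] at this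
  rw [Fin.sum_univ_succ, Fin.sum_univ_succ, sum_eq_zero fun j _ => Mr_free hT j (fun l γ => ?_)
    (h0 j)] at this
  · have e0 : ∀ l : Fin n → Γ, (Fin.cons b (Fin.cons b' l : Fin (n + 1) → Γ) : Fin (n + 2) → Γ) ∘
        Fin.succAbove 0 = Fin.cons b' l := fun l => rfl
    have e1 : ∀ l : Fin n → Γ, (Fin.cons b (Fin.cons b' l : Fin (n + 1) → Γ) : Fin (n + 2) → Γ) ∘
        (Fin.succ 0).succAbove = Fin.cons b l := fun l => funext fun k => by
      refine Fin.cases ?_ (fun k => ?_) k <;> simp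
    simp only [e0, e1, Mr_eq _ hT] at this ⊢
    simp only [Fin.val_zero, Fin.val_succ, pow_zero, one_mul, zero_add, pow_one, neg_mul, zero_mul,
      sum_const_zero, sum_neg_distrib] at this
    linarith
  · congr 2
    funext k
    rw [Fin.cons_update, Fin.cons_update]
    exact update_of_ne (Fin.succAbove_ne _ _) _ _

/-- the form is equivariant -/
theorem Mr_smul (hc : Coc c) (δ b : Γ) : Mr (fun l => c (Fin.cons (δ * b) l)) a =
    Mr (fun l => c (Fin.cons b l)) fun k γ => a k (δ * γ) := by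
  rw [Mr, ← finsum_comp_equiv (Equiv.piCongrRight fun _ : Fin n => Equiv.mulLeft δ)]
  refine finsum_congr fun l => congrArg₂ _ ?_ rfl
  exact (congrArg c (funext fun k => Fin.cases rfl (fun _ => rfl) k)).trans (hc.inv δ (Fin.cons b l))

theorem Mr_inv (hc : Coc c) {a' : Fin n → Γ → Fin n → ℝ} (hf : ∀ k, (support (a' k)).Finite)
    (h0 : ∀ k, ∑ᶠ γ, a' k γ = 0) {δ : Γ} (e : ∀ k γ, a' k (δ * γ) = a k γ) :
    Mr (fun l => c (Fin.cons 1 l)) a' = Mr (fun l => c (Fin.cons 1 l)) a := by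
  rw [Mr_base hc hf h0 1 (δ * 1), Mr_smul hc]
  simp only [e]

end Vale.Agent.P223F
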