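import Vale.Agent.P223F.Mt
import Vale.Agent.P223F.Alg
import Vale.Agent.P223D.Jd

/-!
# P223F: the pairing is the expectation of the form of any random partitions of unity
-/

open MeasureTheory Filter Topology Set Function
open Vale.Agent.P366M Vale.Agent.P223Y Vale.Agent.P223D

noncomputable section

namespace Vale.Agent.P223F

variable {n : ℕ} {X : Type} [Mf0 n X] {Γ : Type} [Group Γ] [MulAction Γ X] {F : Fr Γ}
  {K S : Set X} {ν : F.Ω → Measure X} {χ : X → ℝ} {q u : F.Ω → X → ℝ} {p : Fin n → F.Ω → X → ℝ}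
  {c : (Fin (n + 1) → Γ) → ℝ} {g g' : Fld n X} {ω : F.Ω} {x : X} {γ : Γ}

/-- the differential -/
def row (f : X → ℝ) (x : X) (i : Fin n) : ℝ := pd i f x

/-- the differentials of the members of labelled families -/
def rows (p : Fin n → F.Ω → X → ℝ) (ω : F.Ω) (x : X) (k : Fin n) (γ : Γ) : Fin n → ℝ :=
  row (lb γ (p k) ω) x

theorem Om_eq (g : Fld n X) (c : (Fin (n + 1) → Γ) → ℝ) (p : Fin n → F.Ω → X → ℝ) (ω : F.Ω)
    (x : X) : Om g c p ω x = Mr (fun l => c (Fin.cons 1 l)) (rows p ω x) / √(mat g x).det := by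
  rw [Mr, div_eq_mul_inv, finsum_mul]
  exact finsum_congr fun l => (mul_assoc _ _ _).symm

theorem Lf.sm_lb (d : Deck X Γ) (h : Lf F q) (γ : Γ) (ω : F.Ω) : Smooth (lb γ q ω) :=
  d.smooth (h.sm _) γ

theorem lf_const (hχ : Wt Γ χ) : Pu F fun _ => χ :=
  ⟨⟨tr_const χ, fun _ => hχ.sm, _, hχ.cs, fun _ _ => image_eq_zero_of_notMem_tsupport⟩,
    fun _ => hχ.sum⟩

omit [MulAction Γ X] in
theorem exists_K {ι : Type} [Finite ι] {p : ι → F.Ω → X → ℝ} (h : ∀ k, Lf F (p k)) :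
    ∃ K, IsCompact K ∧ ∀ k, Cs (p k) K := by
  choose K a b using fun k => (h k).cs
  exact ⟨_, isCompact_iUnion a, fun k ω x e => b k ω x fun s => e (mem_iUnion.2 ⟨k, s⟩)⟩

theorem ev_zero (d : Deck X Γ) (hK : IsCompact K) (cs : Cs q K) (h : γ⁻¹ • x ∉ K) :
    lb γ q ω =ᶠ[𝓝 x] fun _ => 0 := (((d.cont γ⁻¹).tendsto x).eventually
  (hK.isClosed.isOpen_compl.mem_nhds h)).mono fun _ => cs _ _

theorem row_mem (d : Deck X Γ) (hK : IsCompact K) (cs : Cs q K) (h : row (lb γ q ω) x ≠ 0) :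
    γ⁻¹ • x ∈ K := by_contra fun e => h (funext (pd_zero_of_ev (ev_zero d hK cs e)))

theorem fin_mem (d : Deck X Γ) (hK : IsCompact K) (x : X) : {γ : Γ | γ⁻¹ • x ∈ K}.Finite := by
  obtain ⟨T, hT⟩ := ev_fin d hK x
  exact T.finite_toSet.subset hT.self_of_nhds

theorem Lf.fin (d : Deck X Γ) (h : Lf F q) (ω : F.Ω) (x : X) :
    (support fun γ : Γ => lb γ q ω x).Finite := by
  obtain ⟨K, a, b⟩ := h.cs
  exact (fin_mem d a x).subset fun _ e => by_contra fun k => e (b _ _ k)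

theorem Lf.fin_row (d : Deck X Γ) (h : Lf F q) (ω : F.Ω) (x : X) :
    (support fun γ : Γ => row (lb γ q ω) x).Finite := by
  obtain ⟨K, a, b⟩ := h.cs
  exact (fin_mem d a x).subset fun _ => row_mem d a b

/-- near a point the sum of a labelled family is a finite sum -/
theorem Lf.ev_sum (d : Deck X Γ) (h : Lf F q) (x : X) : ∃ T : Finset Γ, ∀ ω,
    (∀ γ ∉ T, lb γ q ω =ᶠ[𝓝 x] fun _ => 0) ∧
      (fun y => ∑ᶠ γ : Γ, lb γ q ω y) =ᶠ[𝓝 x] fun y => ∑ γ ∈ T, lb γ q ω y := by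
  obtain ⟨K, a, b⟩ := h.cs
  obtain ⟨T, hT⟩ := ev_fin d a x
  exact ⟨T, fun ω => ⟨fun γ e => ev_zero d a b fun k => e (hT.self_of_nhds γ k), hT.mono fun y k =>
    finsum_eq_sum_of_support_subset _ fun γ e => k γ (by_contra fun s => e (b _ _ s))⟩⟩

theorem Lf.sm_sum (d : Deck X Γ) (h : Lf F q) (ω : F.Ω) : Smooth fun y => ∑ᶠ γ : Γ, lb γ q ω y :=
  cd_of_cAt le_rfl fun x => by
    obtain ⟨T, hT⟩ := h.ev_sum d x
    exact (CD.sum (s := T) fun γ _ => h.sm_lb d γ ω).contDiffAt.congr_of_eventuallyEq (hT ω).2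

theorem Lf.tr_fam (d : Deck X Γ) (h : Lf F q) : Tr fun ω x (γ : Γ) => lb γ q ω x := by
  obtain ⟨K, a, b⟩ := h.cs
  exact h.tr.fam d a b

theorem Lf.row_sum (d : Deck X Γ) (h : Lf F q) (ω : F.Ω) (x : X) :
    ∑ᶠ γ : Γ, row (lb γ q ω) x = row (fun y => ∑ᶠ γ : Γ, lb γ q ω y) x := by
  obtain ⟨T, hT⟩ := h.ev_sum d x
  rw [finsum_eq_sum_of_support_subset (s := T) (fun γ => row (lb γ q ω) x) fun γ e =>
    by_contra fun k => e (funext (pd_zero_of_ev ((hT ω).1 γ k)))]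
  funext i
  rw [row, pd_congr (hT ω).2, pd_sum _ fun γ _ => (h.sm_lb d γ ω).diff x, Finset.sum_apply]
  rfl

theorem Pu.row_sum (d : Deck X Γ) (h : Pu F q) (ω : F.Ω) (x : X) :
    ∑ᶠ γ : Γ, row (lb γ q ω) x = 0 := by
  rw [h.toLf.row_sum d]
  exact funext (pd_zero_of_ev (.of_forall (h.sum ω)))

theorem row_smul (d : Deck X Γ) (δ γ : Γ) (q : F.Ω → X → ℝ) (ω : F.Ω) (x : X) :
    row (lb (δ * γ) q (δ • ω)) (δ • x) = row (lb γ q ω) x := funext fun i => by
  have := congrFun ((d.cm δ).pd i (lb (δ * γ) q (δ • ω))) x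
  simp only [lb_smul] at this
  exact this.symm

theorem tr_rows (d : Deck X Γ) (h : ∀ k, Lf F (p k)) : Tr (rows (Γ := Γ) p) :=
  (tr_pi fun k => (h k).tr_fam d).of_germ fun _ _ _ e => funext fun k => funext fun γ =>
    funext (pd_congr (e.mono fun _ s => congrFun (congrFun s k) γ))

/-- the form is invariant -/
theorem inv_Om (d : Deck X Γ) (hc : Coc c) (h : ∀ k, Pu F (p k)) {g : F.Ω → Fld n X}
    (hg : Inv Γ g) : Inv Γ fun ω => Om (g ω) c p ω := fun δ ω x => by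
  beta_reduce
  rw [Om_eq, Om_eq, Mr_inv (a' := rows p (δ • ω) (δ • x)) (a := rows p ω x) hc
    (fun k => (h k).fin_row d _ _) (fun k => (h k).row_sum d _ _)
    fun k γ => row_smul d δ γ (p k) ω x, mat, mat, hg δ ω x]

section Fs

variable {Φ : (Fin n → Γ) → X → ℝ} (d : Deck X Γ) (hK : IsCompact K) (hΦ : ∀ l, Continuous (Φ l))
  (h : ∀ l x, Φ l x ≠ 0 → ∀ k, (l k)⁻¹ • x ∈ K)
include d hK hΦ h

theorem cont_fs : Continuous fun x => ∑ᶠ l, Φ l x := continuous_iff_continuousAt.2 fun x => by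
  obtain ⟨T, hT⟩ := ev_fin d hK x
  exact (continuous_finsetSum _ fun l _ => hΦ l).continuousAt.congr
    (hT.mono fun y e => (fs_eq fun l s k => e _ (h l y s k)).symm)

theorem int_fs (hg : Met g) (hS : IsCompact S) (s : ∀ l, ∀ x ∉ S, Φ l x = 0) :
    ∫ x, ∑ᶠ l, Φ l x ∂vol g = ∑ᶠ l, ∫ x, Φ l x ∂vol g := by
  have m : ∀ l x, Φ l x ≠ 0 → ∀ k, l k ∈ (proper d hK hS).toFinset := fun l x e k =>
    (Finite.mem_toFinset _).2 ⟨_, h l x e k, by simpa using by_contra fun t => e (s l x t)⟩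
  rw [fs_eq (T := (proper d hK hS).toFinset) fun l e => by_contra fun t =>
    e (integral_eq_zero_of_ae (.of_forall fun x => by_contra fun r => t (m l x r))),
    ← integral_finsetSum _ fun l _ => hg.integrable_supp (hΦ l) (.intro hS (s l))]
  exact integral_congr_ae (.of_forall fun x => fs_eq fun l => m l x)

end Fs

theorem Jd_mem (d : Deck X Γ) (hK : IsCompact K) (cs : ∀ k, Cs (p k) K) {l : Fin n → Γ}
    (h : Jd g (fun k => lb (l k) (p k) ω) x ≠ 0) (k : Fin n) : (l k)⁻¹ • x ∈ K :=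
  by_contra fun e => h (Jd_of_ev (k := k) (ev_zero d hK (cs k) e))

theorem cont_Om (d : Deck X Γ) (hg : Met g) (h : ∀ k, Lf F (p k)) (c : (Fin (n + 1) → Γ) → ℝ)
    (ω : F.Ω) : Continuous (Om g c p ω) := by
  obtain ⟨K, a, b⟩ := exists_K h
  exact cont_fs d a (fun l => continuous_const.mul (cont_Jd d.ori hg fun k => (h k).sm_lb d _ ω))
    fun l x e => Jd_mem d a b (right_ne_zero_of_mul e)

theorem li_Om (d : Deck X Γ) {g : F.Ω → Fld n X} (hT : Tr g) (hg : ∀ ω, Met (g ω))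
    (h : ∀ k, Lf F (p k)) (c : (Fin (n + 1) → Γ) → ℝ) :
    Li F (fun ω => vol (g ω)) fun ω => Om (g ω) c p ω :=
  .of_cont (by
    simp only [funext (Om_eq _ c p _)]
    exact (tr_rows d h).map₂ hT fun _ a b => Mr _ a / √(Matrix.det b))
      (fun ω => cont_Om d (hg ω) h c ω) fun ω => (hg ω).locFin

/-- the derivative of the weight in the direction of an invariant vector field -/
theorem Ex_der (d : Deck X Γ) (hν : Rm F ν) (hχ : Wt Γ χ) {Y : F.Ω → X → Fin n → ℝ} (hY : Inv Γ Y)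
    (h : Li F ν fun ω x => ∑ i, pd i χ x * Y ω x i) :
    ∫ ω, ∫ x, ∑ i, pd i χ x * Y ω x i ∂ν ω ∂F.μ = 0 := by
  rw [← mt hν hχ d h hχ.cs fun ω x e => by simp [pd_zero_of_notMem e]]
  have P := lf_const (F := F) hχ
  have : ∀ ω x, ∑ᶠ γ : Γ, lb γ (fun ω x => ∑ i, pd i χ x * Y ω x i) ω x = 0 := fun ω x => by
    let L : (Fin n → ℝ) →+ ℝ := ⟨⟨fun r => ∑ i, r i * Y ω x i, by simp⟩, fun a b => by
      simp [add_mul, Finset.sum_add_distrib]⟩
    refine .trans (finsum_congr fun γ => ?_) ((L.map_finsum (P.fin_row d ω x)).symm.trans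
      (by rw [P.row_sum d, map_zero]))
    exact Finset.sum_congr rfl fun i _ => congrArg₂ _ (congrFun ((d.cm γ⁻¹).pd i χ) x).symm
      (congrFun (hY _ _ _) i)
  simp [Ex, this]

/-- **the divergence theorem in expectation** -/
theorem Ex_dv (d : Deck X Γ) (hχ : Wt Γ χ) {g : F.Ω → Fld n X} (hI : Inv Γ g) (hT : Tr g)
    (hg : ∀ ω, Met (g ω)) {Y : F.Ω → Fin n → X → ℝ} (iY : Inv Γ fun ω x i => Y ω i x)
    (tY : Tr fun ω x i => Y ω i x) (cY : ∀ ω, CV 1 (Y ω)) :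
    Ex F χ (fun ω => vol (g ω)) (fun ω => dv (g ω) (Y ω)) = 0 := by
  simp only [Ex, (hg _).ibp_dv' hχ.sm.llip hχ.cs (cY _), integral_neg]
  rw [Ex_der d (rm_vol d hI hT hg) hχ iY, neg_zero]
  exact ⟨tY.map fun x a => ∑ i, pd i χ x * a i, fun ω =>
    (hχ.sm.llip.int_dot hχ.cs (hg ω) ((cY ω).of_le zero_le_one)).locallyIntegrable⟩

/-- the difference of two labelled families -/
def dq (q u : F.Ω → X → ℝ) (ω : F.Ω) (x : X) (γ : Γ) : ℝ := lb γ q ω x - lb γ u ω x

/-- the primitive of the difference of two forms, as a vector field -/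
def Yv (g : Fld n X) (c : (Fin (n + 1) → Γ) → ℝ) (p : Fin n → F.Ω → X → ℝ) (q : F.Ω → X → ℝ)
    (j : Fin n) (ω : F.Ω) (x : X) (i : Fin n) : ℝ := Mr (fun l => c (Fin.cons 1 l))
  (update (rows p ω x) j fun γ => dq q (p j) ω x γ • Pi.single i 1) / √(mat g x).det

/-- the exact terms -/
def Xp (g : Fld n X) (χ : X → ℝ) (c : (Fin (n + 1) → Γ) → ℝ) (p : Fin n → F.Ω → X → ℝ)
    (q : F.Ω → X → ℝ) (j : Fin n) (ω : F.Ω) (l : Fin n → Γ) (x : X) : ℝ := c (Fin.cons 1 l) *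
  Jd g (update (fun k => lb (l k) (p k) ω) j fun y => χ y * dq q (p j) ω y (l j)) x

theorem dq_mem (c1 : Cs q K) (c2 : Cs u K) (e : dq q u ω x γ ≠ 0) : γ⁻¹ • x ∈ K :=
  by_contra fun k => e (sub_eq_zero.2 ((c1 _ _ k).trans (c2 _ _ k).symm))

theorem rows_update (p : Fin n → F.Ω → X → ℝ) (q : F.Ω → X → ℝ) (j : Fin n) (ω : F.Ω) (x : X) :
    rows (update p j q) ω x = update (rows p ω x) j fun γ : Γ => row (lb γ q ω) x :=
  funext fun k => by
    by_cases r : k = j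
    · subst r; funext γ; simp [rows]
    · funext γ; simp [rows, r]

theorem sum_Xp (g : Fld n X) (χ : X → ℝ) (c : (Fin (n + 1) → Γ) → ℝ) (p : Fin n → F.Ω → X → ℝ)
    (q : F.Ω → X → ℝ) (j : Fin n) (ω : F.Ω) (x : X) : ∑ᶠ l, Xp g χ c p q j ω l x =
      Mr (fun l => c (Fin.cons 1 l)) (update (rows p ω x) j fun γ =>
        row (fun y => χ y * dq q (p j) ω y γ) x) / √(mat g x).det := by
  rw [Mr, div_eq_mul_inv, finsum_mul]
  refine finsum_congr fun l => ?_
  rw [mul_assoc, dt_update]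
  exact congrArg _ (Jd_upd _ _ _ _ _)

section Up

variable (d : Deck X Γ) (hχ : Wt Γ χ) (hK : IsCompact K) (hp : ∀ k, Lf F (p k)) (hq : Lf F q)
  (c1 : ∀ k, Cs (p k) K) (c2 : Cs q K) (j : Fin n)

include d hχ hp hq in
theorem row_dq (ω : F.Ω) (x : X) (γ : Γ) : row (fun y => χ y * dq q (p j) ω y γ) x =
    χ x • row (lb γ q ω) x + -χ x • rows p ω x j γ +
      ∑ i, pd i χ x • dq q (p j) ω x γ • (Pi.single i 1 : Fin n → ℝ) := funext fun i => by
  have a := (hq.sm_lb d γ ω).diff x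
  have b := ((hp j).sm_lb d γ ω).diff x
  simp only [row, dq]
  rw [pd_mul (hχ.sm.diff x) (a.sub b), pd_sub a b]
  simp [Finset.sum_apply, Pi.single_apply, rows, row]
  ring

include d hχ hK hp hq c1 c2 in
theorem key_up (g : Fld n X) (c : (Fin (n + 1) → Γ) → ℝ) (ω : F.Ω) (x : X) :
    χ x * (Om g c (update p j q) ω x - Om g c p ω x) + ∑ i, pd i χ x * Yv g c p q j ω x i =
      ∑ᶠ l, Xp g χ c p q j ω l x := by
  have m : ∀ γ : Γ, γ⁻¹ • x ∈ K → γ ∈ (fin_mem d hK x).toFinset := fun γ =>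
    (fin_mem d hK x).mem_toFinset.2
  have hT : ∀ k γ, rows p ω x k γ ≠ 0 → γ ∈ _ := fun k γ e => m γ (row_mem d hK (c1 k) e)
  have e2 := Mr_lin Finset.univ (fun l => c (Fin.cons 1 l)) hT j
    (Sum.elim ![χ x, -χ x] fun i => pd i χ x) (u := Sum.elim ![fun γ => row (lb γ q ω) x,
      rows p ω x j] fun i γ => dq q (p j) ω x γ • Pi.single i 1) (by
      rintro (i | i) γ e
      · fin_cases i
        exacts [m γ (row_mem d hK c2 e), hT j γ e]
      · exact m γ (dq_mem c2 (c1 j) (left_ne_zero_of_smul e)))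
  simp only [Fintype.sum_sum_type, Fin.sum_univ_two, Sum.elim_inl, Sum.elim_inr,
    Matrix.cons_val_zero, Matrix.cons_val_one, update_eq_self] at e2
  rw [sum_Xp, Om_eq, Om_eq, rows_update, funext (row_dq d hχ hp hq j ω x), e2]
  simp only [Yv, add_div, Finset.sum_div, mul_div_assoc]
  ring

include d hχ hp hq in
theorem sm_Xp (ω : F.Ω) (l : Fin n → Γ) (k : Fin n) :
    Smooth (update (fun k => lb (l k) (p k) ω) j (fun y => χ y * dq q (p j) ω y (l j)) k) :=
  sm_update (fun k => (hp k).sm_lb d (l k) ω)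
    (CD.mul hχ.sm (CD.sub (hq.sm_lb d _ ω) ((hp j).sm_lb d _ ω))) k

include d hK c1 c2 in
theorem Xp_mem (l : Fin n → Γ) (x : X) (e : Xp g χ c p q j ω l x ≠ 0) (k : Fin n) :
    (l k)⁻¹ • x ∈ K := by_contra fun s => right_ne_zero_of_mul e (Jd_of_ev (k := k) (c := 0) (by
  by_cases r : k = j
  · subst r
    filter_upwards [ev_zero (ω := ω) d hK c2 s, ev_zero (ω := ω) d hK (c1 k) s] with y a b
    simp [dq, a, b]
  · simpa [r] using ev_zero (ω := ω) d hK (c1 k) s))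

include d hp hq in
theorem tr_Yv (g : Fld n X) (c : (Fin (n + 1) → Γ) → ℝ) : Tr (Yv g c p q j) := by
  have := (tr_rows d hp).map₂ ((hq.tr_fam d).prod ((hp j).tr_fam d)) fun x a b i =>
    Mr (fun l => c (Fin.cons 1 l)) (update a j fun γ => (b.1 γ - b.2 γ) • Pi.single i 1) /
      √(mat g x).det
  exact this

end Up

theorem inv_Yv (d : Deck X Γ) (hi : ∀ (γ : Γ) x, g (γ • x) = g x) (hc : Coc c)
    (hp : ∀ k, Pu F (p k)) (hq : Pu F q) (j : Fin n) : Inv Γ (Yv g c p q j) := fun δ ω x =>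
  funext fun i => by
  rw [Yv, Yv, mat, mat, hi, Mr_inv (δ := δ) hc
    (a := update (rows p ω x) j fun γ => dq q (p j) ω x γ • Pi.single i 1)]
  · exact (forall_update_iff _ fun _ a => (support a).Finite).2 ⟨((hq.fin d _ _).union
      ((hp j).fin d _ _)).subset fun γ e => support_sub _ _ (left_ne_zero_of_smul e),
        fun k _ => (hp k).fin_row d _ _⟩
  · refine (forall_update_iff _ fun _ (a : Γ → Fin n → ℝ) => ∑ᶠ γ, a γ = 0).2
      ⟨?_, fun k _ => (hp k).row_sum d _ _⟩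
    simp only [dq]
    rw [← finsum_smul, finsum_sub_distrib (hq.fin d _ _) ((hp j).fin d _ _), hq.sum, (hp j).sum,
      sub_self, zero_smul]
  · intro k γ
    by_cases r : k = j
    · simp [r, dq, lb_smul]
    · simp only [update_of_ne r]
      exact row_smul d δ γ (p k) ω x

theorem Ex_update (d : Deck X Γ) (hg : Met g) (hi : ∀ (γ : Γ) x, g (γ • x) = g x) (hχ : Wt Γ χ)
    (hc : Coc c) (hp : ∀ k, Pu F (p k)) (hq : Pu F q) (j : Fin n) :
    Ex F χ (fun _ => vol g) (Om g c (update p j q)) = Ex F χ (fun _ => vol g) (Om g c p) := by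
  have lp := fun k => (hp k).toLf
  have lp' : ∀ k, Lf F (update p j q k) :=
    (forall_update_iff p fun _ => Lf F).2 ⟨hq.toLf, fun k _ => lp k⟩
  have hν : Rm F fun _ => vol g := rm_vol d (fun γ _ => hi γ) (tr_const g) fun _ => hg
  have l1 := li_Om d (tr_const g) (fun _ => hg) lp c
  have l2 := li_Om d (tr_const g) (fun _ => hg) lp' c
  obtain ⟨K, hK, cs⟩ := exists_K (p := Option.elim' q p) fun k => by
    cases k
    exacts [hq.toLf, lp _]
  have c1 : ∀ k, Cs (p k) K := fun k => cs (some k)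
  have c2 : Cs q K := cs none
  have key := key_up d hχ hK lp hq.toLf c1 c2 j g c
  have cΦ : ∀ ω l, Continuous (Xp g χ c p q j ω l) := fun ω l =>
    continuous_const.mul (cont_Jd d.ori hg (sm_Xp d hχ lp hq.toLf j ω l))
  have lH : Li F (fun _ => vol g) fun ω x => ∑ i, pd i χ x * Yv g c p q j ω x i := by
    refine .of_cont ((tr_Yv d lp hq.toLf j g c).map fun x a => ∑ i, pd i χ x * a i) (fun ω => ?_)
      fun _ => hg.locFin
    simp only [eq_sub_of_add_eq' (key ω _)]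
    exact (cont_fs d hK (cΦ ω) (Xp_mem d hK c1 c2 j)).sub
      (hχ.sm.cont.mul ((cont_Om d hg lp' c ω).sub (cont_Om d hg lp c ω)))
  rw [← sub_eq_zero, ← Ex_sub hν hχ l2 l1, ← neg_zero,
    ← Ex_der d hν hχ (inv_Yv d hi hc hp hq j) lH, ← integral_neg]
  refine integral_congr_ae (.of_forall fun ω => eq_neg_of_add_eq_zero_left ?_)
  have z : ∀ x ∉ tsupport χ, χ =ᶠ[𝓝 x] fun _ => 0 := fun x => notMem_tsupport_iff_eventuallyEq.1
  rw [← integral_add (((l2.sub l1).wt hχ).int hχ.cs (cs_wt χ _) ω)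
    (lH.int hχ.cs (fun ω x e => by simp [pd_zero_of_notMem e]) ω)]
  simp only [key]
  rw [int_fs d hK (cΦ ω) (Xp_mem d hK c1 c2 j) hg hχ.cs fun l x e => mul_eq_zero_of_right _
    (Jd_of_ev (k := j) (c := 0) ((z x e).mono fun y a => by simp [a]))]
  refine finsum_eq_zero_of_forall_eq_zero fun l => ?_
  simp only [Xp]
  rw [integral_const_mul, stokes (k := j) d.ori hg (sm_Xp d hχ lp hq.toLf j ω l) (by
    rw [update_self]; exact hχ.cs.mul_right), mul_zero]

theorem int_div_det (hg : Met g) (hg' : Met g') (a : X → ℝ) :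
    ∫ x, a x / √(mat g' x).det ∂vol g' = ∫ x, a x / √(mat g x).det ∂vol g := by
  let _ : Mf n X := ⟨g, hg⟩
  rw [hg'.integral_vol, volume_eq]
  refine integral_congr_ae (.of_forall fun x => ?_)
  have := (Real.sqrt_pos.2 (hg'.det_pos x)).ne'
  change a x / _ * (√(mat g' x).det / √(mat g x).det) = _
  field_simp

/-- **PAIR** -/
theorem pair_eq (d : Deck X Γ) (hg : Met g) (hi : ∀ (γ : Γ) x, g (γ • x) = g x) (hχ : Wt Γ χ)
    (hc : Coc c) (hp : ∀ k, Pu F (p k)) {G : F.Ω → Fld n X} (hG : ∀ ω, Met (G ω)) :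
    pair g χ c = Ex F χ (fun ω => vol (G ω)) fun ω => Om (G ω) c p ω := by
  classical
  have P := lf_const (F := F) hχ
  have h1 : ∀ s : Finset (Fin n), Ex F χ (fun _ => vol g) (Om g c (s.piecewise p fun _ _ => χ)) =
      Ex F χ (fun _ => vol g) (Om g c fun _ _ => χ) := fun s => by
    induction s using Finset.induction_on with
    | empty => rfl
    | insert j s _ ih =>
      rw [Finset.piecewise_insert, Ex_update d hg hi hχ hc (fun k => ?_) (hp j), ih]
      unfold Finset.piecewise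
      split_ifs
      exacts [hp k, P]
  have h2 : Ex F χ (fun ω => vol (G ω)) (fun ω => Om (G ω) c p ω) =
      Ex F χ (fun _ => vol g) (Om g c p) := by
    simp only [Ex, Om_eq, ← mul_div_assoc, int_div_det hg (hG _)]
  have cs : ∀ _ : Fin n, Cs (fun _ : F.Ω => χ) (tsupport χ) := fun _ _ _ =>
    image_eq_zero_of_notMem_tsupport
  rw [h2, ← Finset.piecewise_univ p fun _ _ => χ, h1, Ex]
  have h3 : ∀ ω : F.Ω, ∫ x, χ x * Om g c (fun _ _ => χ) ω x ∂vol g = pair g χ c := fun ω => by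
    simp only [Om, mul_finsum]
    rw [int_fs (Φ := fun l x => χ x * (c (Fin.cons 1 l) * Jd g (fun k => lb (l k) (fun _ => χ) ω) x))
      d hχ.cs (fun l => hχ.sm.cont.mul (continuous_const.mul (cont_Jd d.ori hg fun k =>
      P.sm_lb d _ ω))) (fun l x e => Jd_mem d hχ.cs cs (right_ne_zero_of_mul (right_ne_zero_of_mul e)))
      hg hχ.cs fun l x e => by simp [image_eq_zero_of_notMem_tsupport e]]
    refine finsum_congr fun l => ?_
    simp only [mul_left_comm (χ _), integral_const_mul]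
    exact mul_comm _ _
  simp [h3]

end Vale.Agent.P223F
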