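import Vale.Agent.P223A.Defs
import Vale.Agent.P223F.Pair
import Vale.Agent.P210U.Loc

/-!
# P223F: tools for the vocabulary of `P223A.Defs`
-/

open MeasureTheory Filter Topology Set
open Vale.Agent.P366M Vale.Agent.P210G Vale.Agent.P223Y Vale.Agent.P223A
open Vale.Agent.P223U (Ph)

noncomputable section

namespace Vale.Agent.P223F

variable {n : ℕ} {X : Type} [Mf0 n X] {Γ : Type} [Group Γ] [MulAction Γ X] {F : Fr Γ}
  {V W B : Type} {σ : F.Ω → X → V} {τ : F.Ω → X → W} {g₀ : Fld n X} {χ : X → ℝ}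
  {g : F.Ω → Fld n X} {v : F.Ω → Fin n → X → ℝ} {u w Q G G' : F.Ω → X → ℝ} {ν : F.Ω → Measure X}

theorem rn_const {s : X → V} (h : ∀ (γ : Γ) x, s (γ • x) = s x) : Rn F fun _ => s :=
  ⟨tr_const s, fun γ _ => h γ⟩

theorem rn_cst (a : V) : Rn F fun _ (_ : X) => a := rn_const fun _ _ => rfl

theorem rn_map (h : Rn F σ) (φ : V → W) : Rn F fun o x => φ (σ o x) :=
  ⟨h.tr.map fun _ => φ, fun γ o x => congrArg φ (h.inv γ o x)⟩

theorem rn_prod (h : Rn F σ) (h' : Rn F τ) : Rn F fun o x => (σ o x, τ o x) :=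
  ⟨h.tr.prod h'.tr, fun γ o x => Prod.ext (h.inv γ o x) (h'.inv γ o x)⟩

theorem rn_map₂ (h : Rn F σ) (h' : Rn F τ) (φ : V → W → B) :
    Rn F fun o x => φ (σ o x) (τ o x) := rn_map (rn_prod h h') fun a => φ a.1 a.2

theorem rn_pi {ι : Type} [Finite ι] {V : ι → Type} {σ : ∀ i, F.Ω → X → V i} (h : ∀ i, Rn F (σ i)) :
    Rn F fun o x i => σ i o x :=
  ⟨tr_pi fun i => (h i).tr, fun γ o x => funext fun i => (h i).inv γ o x⟩

/-- natural operations which depend only on germs -/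
theorem rn_nat (h : Rn F σ) (Op : (X → V) → X → W)
    (germ : ∀ s s' x, s =ᶠ[𝓝 x] s' → Op s x = Op s' x)
    (nat : ∀ (γ : Γ) s x, Op (fun z => s (γ • z)) x = Op s (γ • x)) : Rn F fun o => Op (σ o) :=
  ⟨h.tr.of_germ fun _ _ _ => germ _ _ _, fun γ o x => (nat γ _ x).symm.trans
    (congrArg (Op · x) (funext (h.inv γ o)))⟩

theorem rn_finsum [AddCommMonoid V] (d : Deck X Γ) {K : Set X} (h : Tr σ) (hK : IsCompact K)
    (cs : Cs σ K) : Rn F fun o x => ∑ᶠ γ : Γ, lb γ σ o x :=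
  ⟨(h.fam d hK cs).map fun _ a => ∑ᶠ γ, a γ, inv_finsum σ⟩

theorem rn_un (d : Deck X Γ) {A : Set F.Ω} {D : Set X} (hA : IsClopen A) (hD : IsCompact D) :
    Rn F fun o x => x ∈ Un Γ A D o := ⟨tr_un d hA hD, fun γ _ _ => propext (smul_un γ)⟩

theorem rn_pd (d : Deck X Γ) (hu : Rn F u) : Rn F fun o x i => pd i (u o) x :=
  rn_nat hu (fun s x i => pd i s x) (fun _ _ _ e => funext (pd_congr e))
    fun γ s x => funext fun i => congrFun ((d.cm γ).pd i s) x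

theorem rn_ip (d : Deck X Γ) (hg : Rn F g) (hu : Rn F u) (hw : Rn F w) :
    Rn F fun o => ip (g o) (u o) (w o) := by
  have := rn_map₂ hg (rn_prod (rn_pd d hu) (rn_pd d hw)) fun a b =>
    ∑ i, ∑ j, (show Matrix (Fin n) (Fin n) ℝ from a)⁻¹ i j * b.1 i * b.2 j
  exact this

theorem rn_gn (d : Deck X Γ) (hg : Rn F g) (hu : Rn F u) : Rn F fun o => gn (g o) (u o) :=
  rn_map (rn_ip d hg hu hu) Real.sqrt

theorem rn_Rv (d : Deck X Γ) (hg : Rn F g) (hv : Rn F fun o x i => v o i x) :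
    Rn F fun o => Rv (g o) (v o) :=
  rn_nat (rn_prod hg hv) (fun s => Rv (fun z => (s z).1) fun i z => (s z).2 i)
    (fun _ _ _ e => P210U.Rv_of_ev (e.mono fun _ => congrArg Prod.fst)
      fun i => e.mono fun _ => congrArg fun a : _ × (Fin n → ℝ) => a.2 i)
    fun γ s => congrFun ((d.cm γ).Rv (fun z => (s z).1) fun i z => (s z).2 i)

theorem rs_Rv (d : Deck X Γ) (h : Sta F g v) : Rs F fun o => Rv (g o) (v o) :=
  ⟨rn_Rv d h.rg h.rv, fun o => sm_Rv (h.met o) (h.cc o)⟩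

theorem rs_cst (a : ℝ) : Rs F fun _ (_ : X) => a := ⟨rn_cst a, fun _ => cd_const⟩

theorem rs_add (h : Rs F u) (h' : Rs F w) : Rs F fun o x => u o x + w o x :=
  ⟨rn_map₂ h.toRn h'.toRn (· + ·), fun o => CD.add (h.sm o) (h'.sm o)⟩

theorem rs_sub (h : Rs F u) (h' : Rs F w) : Rs F fun o x => u o x - w o x :=
  ⟨rn_map₂ h.toRn h'.toRn (· - ·), fun o => CD.sub (h.sm o) (h'.sm o)⟩

theorem rs_mul (h : Rs F u) (h' : Rs F w) : Rs F fun o x => u o x * w o x :=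
  ⟨rn_map₂ h.toRn h'.toRn (· * ·), fun o => CD.mul (h.sm o) (h'.sm o)⟩

theorem rs_sum (d : Deck X Γ) (h : Lf F u) : Rs F fun o x => ∑ᶠ γ : Γ, lb γ u o x := by
  obtain ⟨K, a, b⟩ := h.cs
  exact ⟨rn_finsum d h.tr a b, h.sm_sum d⟩

section Dr

variable {g g' : Fld n X}

theorem dr_pos (h₀ : Met g₀) (hg : Met g) (x : X) : 0 < dr g₀ g x :=
  div_pos (Real.sqrt_pos.2 (hg.det_pos x)) (Real.sqrt_pos.2 (h₀.det_pos x))

theorem sm_dr (h₀ : Met g₀) (hg : Met g) : Smooth (dr g₀ g) :=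
  let _ : Mf n X := ⟨g₀, h₀⟩
  hg.sm_dens

theorem dr_mul (hg : Met g) (g₀ g' : Fld n X) (x : X) : dr g₀ g x * dr g g' x = dr g₀ g' x := by
  have := (Real.sqrt_pos.2 (hg.det_pos x)).ne'
  unfold dr
  field_simp

theorem int_dr (h₀ : Met g₀) (hg : Met g) (f : X → ℝ) :
    ∫ x, f x ∂vol g = ∫ x, f x * dr g₀ g x ∂vol g₀ :=
  let _ : Mf n X := ⟨g₀, h₀⟩
  hg.integral_vol f

theorem setInt_dr (h₀ : Met g₀) (hg : Met g) {S : Set X} (hS : MeasurableSet S) (f : X → ℝ) :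
    ∫ x in S, f x ∂vol g = ∫ x in S, f x * dr g₀ g x ∂vol g₀ := by
  simp only [← integral_indicator hS, int_dr h₀ hg, indicator_mul_left]

theorem md_pos (h₀ : Met g₀) (hg : Met g) (s δ : ℝ) (v : Fin n → X → ℝ) (Q : X → ℝ) (x : X) :
    0 < md s δ g₀ g v Q x := mul_pos (Real.exp_pos _) (dr_pos h₀ hg x)

end Dr

theorem rn_dr (hi : ∀ (γ : Γ) x, g₀ (γ • x) = g₀ x) (hg : Rn F g) : Rn F fun o => dr g₀ (g o) := by
  have := rn_map₂ hg (rn_const hi) fun a b => √(Matrix.det a) / √(Matrix.det b)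
  exact this

theorem rs_dr (H : Geo Γ g₀ χ) (hg : Rn F g) (hm : ∀ o, Met (g o)) : Rs F fun o => dr g₀ (g o) :=
  ⟨rn_dr H.inv hg, fun o => sm_dr H.riem.met (hm o)⟩

theorem rs_md (H : Geo Γ g₀ χ) (h : Sta F g v) (hQ : Rs F Q) (s δ : ℝ) :
    Rs F fun o => md s δ g₀ (g o) (v o) (Q o) := by
  have a := rs_mul (rs_cst (-s)) (rs_sub (rs_Rv H.deck h) (rs_mul (rs_cst δ) hQ))
  exact rs_mul ⟨rn_map a.toRn Real.exp, fun o => CD.exp (a.sm o)⟩ (rs_dr H h.rg h.met)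

theorem cont_Ph (s T : ℝ) : Continuous (Ph s T) := by unfold Ph; fun_prop

theorem Ph_nonneg (s T y : ℝ) : 0 ≤ Ph s T y := le_max_right _ _

section Cnt

variable {J : ℕ} {T : Fin J → X → ℝ}

theorem meas_card {p : Fin J → X → Prop} [∀ i x, Decidable (p i x)]
    (h : ∀ i, MeasurableSet {x | p i x}) :
    Measurable fun x => (Finset.univ.filter fun i => p i x).card := by
  simp only [Finset.card_filter]
  exact Finset.measurable_sum _ fun i _ => .ite (h i) measurable_const measurable_const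

theorem meas_nt (h : ∀ i, Continuous (T i)) (ρ : ℝ) : Measurable fun x => nt ρ fun i => T i x :=
  meas_card fun i => (isClosed_le (h i).abs continuous_const).measurableSet

theorem meas_kk (h : ∀ i, Continuous (T i)) (ρ : ℝ) : Measurable fun x => kk ρ fun i => T i x :=
  meas_card fun i => ((isClosed_le (h i).abs continuous_const).and (by
    simp only [ofPred_forall]
    exact isClosed_iInter fun j => isClosed_iInter fun _ =>
      isClosed_le (h j) continuous_const)).measurableSet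

theorem ge_nonneg (k m : ℕ) : 0 ≤ ge k m := by unfold ge; split_ifs <;> norm_num

theorem ge_le_one (k m : ℕ) : ge k m ≤ 1 := by unfold ge; split_ifs <;> norm_num

theorem ge_of_le {k m : ℕ} (h : k ≤ m) : ge k m = 1 := if_pos h

theorem ge_of_lt {k m : ℕ} (h : m < k) : ge k m = 0 := if_neg h.not_ge

theorem kk_le_nt (ρ : ℝ) (t : Fin J → ℝ) : kk ρ t ≤ nt ρ t :=
  Finset.card_le_card (Finset.monotone_filter_right _ fun _ _ a => a.1)

theorem nt_mono {ρ ρ' : ℝ} (h : ρ ≤ ρ') (t : Fin J → ℝ) : nt ρ t ≤ nt ρ' t :=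
  Finset.card_le_card (Finset.monotone_filter_right _ fun _ _ a => a.trans h)

theorem Li.ge (h : Li F ν G) {k : F.Ω → X → ℕ} (t : Tr k) (m : ∀ o, Measurable (k o)) (a : ℕ) :
    Li F ν fun o x => ge a (k o x) * G o x := by
  have := h.ind (S := fun o => {x | a ≤ k o x}) (t.map fun _ b => a ≤ b)
    fun o => m o (MeasurableSet.of_discrete (s := Ici a))
  convert this using 3 with o x
  by_cases q : a ≤ k o x <;> simp [P223A.ge, q]

variable {T : Fin J → F.Ω → X → ℝ}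

theorem rn_nt (h : ∀ i, Rn F (T i)) (ρ : ℝ) : Rn F fun o x => nt ρ fun i => T i o x :=
  rn_map (rn_pi h) (nt ρ)

theorem rn_kk (h : ∀ i, Rn F (T i)) (ρ : ℝ) : Rn F fun o x => kk ρ fun i => T i o x :=
  rn_map (rn_pi h) (kk ρ)

theorem Li.nt (h : Li F ν G) (hT : ∀ i, Rs F (T i)) (a : ℕ) (ρ : ℝ) :
    Li F ν fun o x => P223A.ge a (nt ρ fun i => T i o x) * G o x :=
  h.ge (rn_nt (fun i => (hT i).toRn) ρ).tr (fun o => meas_nt (fun i => ((hT i).sm o).cont) ρ) a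

theorem Li.kk (h : Li F ν G) (hT : ∀ i, Rs F (T i)) (a : ℕ) (ρ : ℝ) :
    Li F ν fun o x => P223A.ge a (kk ρ fun i => T i o x) * G o x :=
  h.ge (rn_kk (fun i => (hT i).toRn) ρ).tr (fun o => meas_kk (fun i => ((hT i).sm o).cont) ρ) a

end Cnt

theorem li_vol (hg : ∀ o, Met (g o)) (t : Tr G) (c : ∀ o, Continuous (G o)) :
    Li F (fun o => vol (g o)) G := .of_cont t c fun o => (hg o).locFin

omit [MulAction Γ X] in
/-- the expectation for a random metric in terms of `g₀` -/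
theorem Ex_vol (h₀ : Met g₀) (hg : ∀ o, Met (g o)) (G : F.Ω → X → ℝ) :
    Ex F χ (fun o => vol (g o)) G = E0 F g₀ χ fun o x => G o x * dr g₀ (g o) x := by
  simp only [E0, Ex, int_dr h₀ (hg _), mul_assoc]

theorem E0_const_mul (c : ℝ) (G : F.Ω → X → ℝ) :
    E0 F g₀ χ (fun o x => c * G o x) = c * E0 F g₀ χ G := Ex_const_mul c G

omit [MulAction Γ X] in
theorem E0_const (c : ℝ) : E0 F g₀ χ (fun _ _ => c) = c * ∫ x, χ x ∂vol g₀ := by
  simp [E0, Ex, integral_mul_const, mul_comm c]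

section E0

variable (H : Geo Γ g₀ χ)
include H

theorem rm0 : Rm F fun _ => vol g₀ :=
  rm_vol H.deck (fun γ _ => H.inv γ) (tr_const g₀) fun _ => H.riem.met

theorem li0 (t : Tr G) (c : ∀ o, Continuous (G o)) : Li F (fun _ => vol g₀) G :=
  li_vol (fun _ => H.riem.met) t c

theorem li_rs (h : Rs F G) : Li F (fun _ => vol g₀) G := li0 H h.tr fun o => (h.sm o).cont

theorem E0_nonneg (h : ∀ o x, 0 ≤ G o x) : 0 ≤ E0 F g₀ χ G := Ex_nonneg H.wt h

theorem E0_mono (h : Li F (fun _ => vol g₀) G) (h' : Li F (fun _ => vol g₀) G')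
    (le : ∀ o x, G o x ≤ G' o x) : E0 F g₀ χ G ≤ E0 F g₀ χ G' := Ex_mono (rm0 H) H.wt h h' le

theorem E0_add (h : Li F (fun _ => vol g₀) G) (h' : Li F (fun _ => vol g₀) G') :
    E0 F g₀ χ (fun o x => G o x + G' o x) = E0 F g₀ χ G + E0 F g₀ χ G' := Ex_add (rm0 H) H.wt h h'

theorem E0_sum {ι : Type} (s : Finset ι) {G : ι → F.Ω → X → ℝ}
    (h : ∀ i ∈ s, Li F (fun _ => vol g₀) (G i)) :
    E0 F g₀ χ (fun o x => ∑ i ∈ s, G i o x) = ∑ i ∈ s, E0 F g₀ χ (G i) := Ex_sum (rm0 H) H.wt s h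

theorem E0_le (h : Li F (fun _ => vol g₀) G) {m : ℝ} (le : ∀ o x, G o x ≤ m) :
    E0 F g₀ χ G ≤ m * ∫ x, χ x ∂vol g₀ :=
  (E0_mono H h (li_rs H (rs_cst m)) le).trans_eq (E0_const m)

/-- a bound for every `ω` bounds the expectation -/
theorem E0_le' (h : Li F (fun _ => vol g₀) G) {m : ℝ} (le : ∀ o, ∫ x, χ x * G o x ∂vol g₀ ≤ m) :
    E0 F g₀ χ G ≤ m := by
  simpa [E0, Ex] using integral_mono (lc_int (h.ex_lc (rm0 H) H.wt)) (integrable_const m) le

end E0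

end Vale.Agent.P223F
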