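import Vale.Agent.P223Y.Defs

/-!
# P223F: random equivariant fields on the universal covering; definitions (helper79)
-/

open MeasureTheory Filter Topology Set
open Vale.Agent.P366M Vale.Agent.P223Y

noncomputable section

namespace Vale.Agent.P223F

/-- a frame: a free continuous action on a compact totally disconnected space, with an invariant
probability measure -/
structure Fr (Γ : Type) [Group Γ] where
  Ω : Type
  [top : TopologicalSpace Ω]
  [mea : MeasurableSpace Ω]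
  [act : MulAction Γ Ω]
  [cpt : CompactSpace Ω]
  [t2 : T2Space Ω]
  [td : TotallyDisconnectedSpace Ω]
  [bor : BorelSpace Ω]
  [cont : ContinuousConstSMul Γ Ω]
  μ : Measure Ω
  [prob : IsProbabilityMeasure μ]
  [inv : SMulInvariantMeasure Γ Ω μ]
  free : ∀ (γ : Γ) (ω : Ω), γ • ω = ω → γ = 1

attribute [instance] Fr.top Fr.mea Fr.act Fr.cpt Fr.t2 Fr.td Fr.bor Fr.cont Fr.prob Fr.inv

section Top

variable {Ω X V : Type} [TopologicalSpace Ω] [TopologicalSpace X]

/-- finite range: the field is locally constant in the direction of `Ω` -/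
def Tr (σ : Ω → X → V) : Prop := ∀ ω₀ x₀, ∀ᶠ p in 𝓝 ω₀ ×ˢ 𝓝 x₀, σ p.1 p.2 = σ ω₀ p.2

end Top

section Act

variable (Γ : Type) {Ω X V : Type} [Group Γ] [MulAction Γ Ω] [MulAction Γ X]

/-- invariant fields -/
def Inv (σ : Ω → X → V) : Prop := ∀ (γ : Γ) ω x, σ (γ • ω) (γ • x) = σ ω x

/-- equivariant fields -/
def Eqv [MulAction Γ V] (σ : Ω → X → V) : Prop :=
  ∀ (γ : Γ) ω x, σ (γ • ω) (γ • x) = γ • σ ω x

/-- the translates `γ • D` with `γ⁻¹ • ω ∈ A` are disjoint -/
def Sep (A : Set Ω) (D : Set X) : Prop :=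
  ∀ (γ : Γ), ∀ ω ∈ A, ∀ x ∈ D, γ • ω ∈ A → γ • x ∈ D → γ = 1

/-- the union of the translates `γ • D` with `γ⁻¹ • ω ∈ A` -/
def Un (A : Set Ω) (D : Set X) (ω : Ω) : Set X := {x | ∃ γ : Γ, γ⁻¹ • ω ∈ A ∧ γ⁻¹ • x ∈ D}

variable {Γ}

/-- the member with the label `γ` of the labelled family whose member with the label `1` is `p` -/
def lb (γ : Γ) (p : Ω → X → V) (ω : Ω) (x : X) : V := p (γ⁻¹ • ω) (γ⁻¹ • x)

end Act

/-- the support is in `K` -/
def Cs {Ω X V : Type} [Zero V] (p : Ω → X → V) (K : Set X) : Prop := ∀ ω, ∀ x ∉ K, p ω x = 0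

variable {n : ℕ} {X : Type} [Mf0 n X] {Γ : Type} [Group Γ] [MulAction Γ X] (F : Fr Γ)

/-- random equivariant measures of finite range, e.g. `fun ω => vol (g ω)` -/
structure Rm (ν : F.Ω → Measure X) : Prop where
  eqv : ∀ (γ : Γ) ω, ν (γ • ω) = (ν ω).map (γ • ·)
  tr : ∀ K, IsCompact K → ∀ ω₀, ∀ᶠ ω in 𝓝 ω₀, (ν ω).restrict K = (ν ω₀).restrict K

/-- random functions of finite range which are locally integrable -/
structure Li (ν : F.Ω → Measure X) (G : F.Ω → X → ℝ) : Prop where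
  tr : Tr G
  li : ∀ ω, LocallyIntegrable (G ω) (ν ω)

/-- the expected integral over a fundamental domain -/
def Ex (χ : X → ℝ) (ν : F.Ω → Measure X) (G : F.Ω → X → ℝ) : ℝ :=
  ∫ ω, ∫ x, χ x * G ω x ∂ν ω ∂F.μ

/-- labelled families of smooth functions with uniformly compact supports -/
structure Lf (p : F.Ω → X → ℝ) : Prop where
  tr : Tr p
  sm : ∀ ω, Smooth (p ω)
  cs : ∃ K, IsCompact K ∧ Cs p K

/-- random equivariant partitions of unity with labels in `Γ` -/
structure Pu (p : F.Ω → X → ℝ) : Prop extends Lf F p where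
  sum : ∀ ω x, ∑ᶠ γ : Γ, lb γ p ω x = 1

variable {F}

/-- the density of the form of the cocycle `c` for `n` partitions of unity -/
def Om (g : Fld n X) (c : (Fin (n + 1) → Γ) → ℝ) (p : Fin n → F.Ω → X → ℝ) (ω : F.Ω) (x : X) : ℝ :=
  ∑ᶠ l : Fin n → Γ, c (Fin.cons 1 l) * Jd g (fun k => lb (l k) (p k) ω) x

/-- painting the score `s` over the partition `p` -/
def paint (s p : F.Ω → X → ℝ) (ω : F.Ω) (x : X) : ℝ :=
  s ω x + (1 - ∑ᶠ γ : Γ, lb γ s ω x) * p ω x

/-- painting the scores `s 0, …, s (J - 1)` in this order over the partition `p` -/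
def paints (s : ℕ → F.Ω → X → ℝ) (p : F.Ω → X → ℝ) : ℕ → F.Ω → X → ℝ
  | 0 => p
  | J + 1 => paint (s J) (paints s p J)

end Vale.Agent.P223F
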