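import Vale.Agent.P223F.Pair

/-!
# P223F: labels, and the partitions of unity given by labelled pieces
-/

open MeasureTheory Filter Topology Set Function
open scoped Classical
open Vale.Agent.P366M Vale.Agent.P223Y Vale.Agent.P223D
open Vale.Agent.P366P (ev_lim)

noncomputable section

namespace Vale.Agent.P223F

theorem Mr_lab {n J : ℕ} {Γ : Type} (h : (Fin n → Γ) → ℝ) (lam : Fin J → Γ)
    (r : Fin n → Fin J → Fin n → ℝ) : Mr h (fun k γ => ∑ j, if lam j = γ then r k j else 0) =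
      ∑ ρ : Fin n → Fin J, h (fun k => lam (ρ k)) * (Matrix.of fun k => r k (ρ k)).det := by
  have e : ∀ l, h l * dt (fun k γ => ∑ j, if lam j = γ then r k j else 0) l = ∑ ρ : Fin n → Fin J,
      if l = fun k => lam (ρ k) then h l * (Matrix.of fun k => r k (ρ k)).det else 0 := fun l => by
    have := (Matrix.detRowAlternating (R := ℝ) (n := Fin n)).toMultilinearMap.map_sum
      fun k j => if lam j = l k then r k j else 0
    rw [show dt (fun k γ => ∑ j, if lam j = γ then r k j else 0) l = _ from this, Finset.mul_sum]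
    refine Finset.sum_congr rfl fun ρ _ => ?_
    split_ifs with q
    · simp only [q, if_true]; rfl
    · obtain ⟨k, a⟩ := ne_iff.1 q
      exact mul_eq_zero_of_right _ (MultilinearMap.map_coord_zero _ k (if_neg a.symm))
  simp only [Mr, e]
  rw [finsum_sum_comm _ _ fun ρ _ => (finite_singleton fun k => lam (ρ k)).subset
    fun l q => by_contra fun a => q (if_neg a)]
  exact Finset.sum_congr rfl fun ρ _ =>
    (finsum_eq_single _ _ fun l q => if_neg q).trans (if_pos rfl)

variable {n : ℕ} {X : Type} [Mf0 n X] {Γ : Type} [Group Γ] [MulAction Γ X] {F : Fr Γ}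
  {K D : Set X} {A : Set F.Ω} {t : F.Ω → X → ℝ} {a a' : ℝ}

/-- labels on the set where `t` is above `a` -/
structure Lab (F : Fr Γ) (K : Set X) (t : F.Ω → X → ℝ) (a : ℝ) (lam : F.Ω → X → Γ) : Prop where
  lc : ∀ o x, t o x ≠ a → ∀ᶠ q in 𝓝 o ×ˢ 𝓝 x, lam q.1 q.2 = lam o x
  eqv : ∀ (γ : Γ) o x, a < t o x → lam (γ • o) (γ • x) = γ * lam o x
  cs : ∀ o x, a < t o x → lam o x = 1 → x ∈ K

omit [MulAction Γ X] in
theorem Tr.tendsto (h : Tr t) (c : ∀ o, Continuous (t o)) (o : F.Ω) (x : X) :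
    Tendsto (fun q : F.Ω × X => t q.1 q.2) (𝓝 o ×ˢ 𝓝 x) (𝓝 (t o x)) :=
  (((c o).tendsto x).comp tendsto_snd).congr' ((h o x).mono fun _ => Eq.symm)

theorem exists_lab (d : Deck X Γ) (hA : IsClopen A) (hD : K ⊆ interior D) (hs : Sep Γ A D)
    (ht : Tr t) (c : ∀ o, Continuous (t o)) (hI : Inv Γ t)
    (H : ∀ o x, a < t o x → x ∈ Un Γ A K o) : ∃ lam, Lab F K t a lam := by
  have sb := hD.trans interior_subset
  let lam : F.Ω → X → Γ := fun o x => if h : a < t o x then (H o x h).choose else 1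
  have sp : ∀ o x, a < t o x → (lam o x)⁻¹ • o ∈ A ∧ (lam o x)⁻¹ • x ∈ K := fun o x h => by
    simp only [lam, dif_pos h]
    exact (H o x h).choose_spec
  refine ⟨lam, fun o x h => ?_, fun γ o x h => ?_, fun o x h e => by simpa [e] using (sp o x h).2⟩
  · rcases h.lt_or_gt with h | h
    · filter_upwards [(ht.tendsto c o x).eventually (gt_mem_nhds h)] with q k
      simp only [lam, dif_neg k.not_gt, dif_neg h.not_gt]
    · filter_upwards [(ht.tendsto c o x).eventually (lt_mem_nhds h),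
        (((continuous_const_smul (lam o x)⁻¹).tendsto _).eventually
          (hA.isOpen.mem_nhds (sp o x h).1)).prod_inl _, (((d.cont (lam o x)⁻¹).tendsto _).eventually
            (mem_interior_iff_mem_nhds.1 (hD (sp o x h).2))).prod_inr _] with q k a b
      exact hs.eq (sp _ _ k).1 (sb (sp _ _ k).2) a b
  · have k := sp (γ • o) (γ • x) ((hI γ o x).symm ▸ h)
    exact hs.eq k.1 (sb k.2) (by simpa [mul_smul] using (sp o x h).1)
      (by simpa [mul_smul] using sb (sp o x h).2)

/-- the piece with the label `1` -/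
def pn {J : ℕ} (lam : Fin J → F.Ω → X → Γ) (u : Fin J → F.Ω → X → ℝ) (o : F.Ω) (x : X) : ℝ :=
  ∑ j, if lam j o x = 1 then u j o x else 0

section Pn

variable {J : ℕ} {T u : Fin J → F.Ω → X → ℝ} {lam : Fin J → F.Ω → X → Γ} (d : Deck X Γ)
  (hK : IsCompact K) (tT : ∀ j, Tr (T j)) (cT : ∀ j o, Continuous (T j o))
  (hl : ∀ j, Lab F K (T j) a (lam j)) (tu : ∀ j, Tr (u j)) (iu : ∀ j, Inv Γ (u j))
  (su : ∀ j o, Smooth (u j o)) (ha : a < a') (h0 : ∀ j o x, T j o x < a' → u j o x = 0)
  (h1 : ∀ o x, ∑ j, u j o x = 1)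

include hl iu ha h0 in
theorem lb_pn (γ : Γ) (o : F.Ω) (x : X) :
    lb γ (pn lam u) o x = ∑ j, if lam j o x = γ then u j o x else 0 := by
  rw [lb, pn]
  refine Finset.sum_congr rfl fun j _ => ?_
  rw [iu j]
  by_cases q : T j o x < a'
  · simp [h0 j o x q]
  · simp only [(hl j).eqv _ o x (ha.trans_le (not_lt.1 q)), inv_mul_eq_one, eq_comm (a := γ)]

include tT cT hl iu ha h0 in
theorem ev_pn (o : F.Ω) (x : X) : ∀ᶠ q in 𝓝 o ×ˢ 𝓝 x, ∀ γ : Γ,
    lb γ (pn lam u) q.1 q.2 = ∑ j, if lam j o x = γ then u j q.1 q.2 else 0 := by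
  have : ∀ j, ∀ᶠ q in 𝓝 o ×ˢ 𝓝 x, lam j q.1 q.2 = lam j o x ∨ u j q.1 q.2 = 0 := fun j => by
    by_cases q : T j o x = a
    · exact (((tT j).tendsto (cT j) o x).eventually (gt_mem_nhds (q ▸ ha))).mono
        fun _ k => .inr (h0 j _ _ k)
    · exact ((hl j).lc o x q).mono fun _ => .inl
  filter_upwards [eventually_all.2 this] with q k γ
  rw [lb_pn hl iu ha h0]
  exact Finset.sum_congr rfl fun j _ => by rcases k j with e | e <;> simp [e]

include tT cT hl iu ha h0 in
theorem germ_pn (γ : Γ) (o : F.Ω) (x : X) :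
    lb γ (pn lam u) o =ᶠ[𝓝 x] fun y => ∑ j, if lam j o x = γ then u j o y else 0 :=
  (ev_lim (P := fun o' y => ∀ γ : Γ, lb γ (pn lam u) o' y = ∑ j, if lam j o x = γ then u j o' y
    else 0) (pure_le_nhds _) (ev_pn tT cT hl iu ha h0 o x)).mono fun _ k => k γ

omit [MulAction Γ X] in
include su in
theorem sm_ite (P : Prop) [Decidable P] (j : Fin J) (o : F.Ω) :
    Smooth fun y => if P then u j o y else 0 := by
  split_ifs
  exacts [su j o, cd_const]

include hK tT cT hl tu iu su ha h0 h1 in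
theorem pu_pn : Pu F (pn lam u) ∧ Cs (pn lam u) K := by
  have cs : Cs (pn lam u) K := fun o x e => Finset.sum_eq_zero fun j _ => by
    split_ifs with q
    · exact h0 j o x (not_le.1 fun k => e ((hl j).cs o x (ha.trans_le k) q))
    · rfl
  refine ⟨⟨⟨tr_of_ev fun o x => ⟨_, (tr_pi tu).map fun _ b => ∑ j, if lam j o x = 1 then b j else 0,
    (ev_pn tT cT hl iu ha h0 o x).mono fun q k => by simpa only [lb_one] using k 1⟩, fun o =>
      cd_of_cAt le_rfl fun x => ?_, K, hK, cs⟩, fun o x => ?_⟩, cs⟩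
  · refine (CD.sum (s := Finset.univ) fun j _ =>
      sm_ite su (lam j o x = 1) j o).contDiffAt.congr_of_eventuallyEq ?_
    simpa only [lb_one] using germ_pn tT cT hl iu ha h0 1 o x
  · simp only [lb_pn hl iu ha h0]
    rw [finsum_sum_comm _ _ fun j _ => (finite_singleton (lam j o x)).subset
      fun γ q => by_contra fun k => q (if_neg (Ne.symm k)), ← h1 o x]
    exact Finset.sum_congr rfl fun j _ =>
      (finsum_eq_single _ _ fun γ q => if_neg q.symm).trans (if_pos rfl)

include tT cT hl iu su ha h0 in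
theorem Om_pn (g : Fld n X) (c : (Fin (n + 1) → Γ) → ℝ) (o : F.Ω) (x : X) :
    Om g c (fun _ => pn lam u) o x = ∑ ρ : Fin n → Fin J,
      c (Fin.cons 1 fun k => lam (ρ k) o x) * Jd g (fun k => u (ρ k) o) x := by
  have e : rows (fun _ : Fin n => pn lam u) o x =
      fun _ γ => ∑ j, if lam j o x = γ then row (u j o) x else 0 := funext fun k => funext fun γ =>
    funext fun i => by
      rw [rows, row, pd_congr (germ_pn tT cT hl iu ha h0 γ o x),
        pd_sum _ fun j _ => (sm_ite su _ j o).diff x, Finset.sum_apply]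
      refine Finset.sum_congr rfl fun j _ => ?_
      split_ifs
      exacts [rfl, pd_const _ _ _]
  rw [Om_eq, e, Mr_lab, Finset.sum_div]
  exact Finset.sum_congr rfl fun ρ _ => mul_div_assoc _ _ _

end Pn

/-- the expectation of an invariant function, with a random partition of unity as the weight -/
theorem Ex_pu {ν : F.Ω → Measure X} {χ : X → ℝ} {p G : F.Ω → X → ℝ} (hν : Rm F ν) (hχ : Wt Γ χ)
    (d : Deck X Γ) (hp : Pu F p) (h : Li F ν G) (hI : Inv Γ G) :
    Ex F χ ν G = ∫ o, ∫ x, p o x * G o x ∂ν o ∂F.μ := by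
  obtain ⟨K, hK, cs⟩ := hp.cs
  rw [← mt hν hχ d (h.mul hp.tr fun o => (hp.sm o).cont) hK fun o x e => by simp [cs o x e]]
  congr 1
  funext o x
  have : ∀ γ : Γ, lb γ (fun o x => p o x * G o x) o x = lb γ p o x * G o x := fun γ =>
    congrArg _ (hI _ _ _)
  simp only [this]
  rw [← finsum_mul, hp.sum, one_mul]

end Vale.Agent.P223F
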