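import Vale.Agent.P223F.Ex
import Vale.Agent.P366P.Cv
import Mathlib.Topology.Separation.Profinite

/-!
# P223F: fields of finite range, colourings, simultaneous local operations
-/

open Filter Topology Set
open Vale.Agent.P366M Vale.Agent.P223Y
open Vale.Agent.P366P (ev_nhds ev_lim ev_cpt)

noncomputable section

namespace Vale.Agent.P223F

section Top

variable {Ω X V W B : Type} [TopologicalSpace Ω] [TopologicalSpace X] {σ : Ω → X → V}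
  {τ : Ω → X → W} {K : Set X}

theorem Tr.germ (h : Tr σ) (ω₀ : Ω) (x₀ : X) : ∀ᶠ p in 𝓝 ω₀ ×ˢ 𝓝 x₀, σ p.1 =ᶠ[𝓝 p.2] σ ω₀ :=
  ev_nhds (P := fun ω x => σ ω x = σ ω₀ x) (h ω₀ x₀)

/-- operations which depend only on germs preserve the finite range -/
theorem Tr.of_germ (h : Tr σ) (H : ∀ ω ω' x, σ ω =ᶠ[𝓝 x] σ ω' → τ ω x = τ ω' x) : Tr τ :=
  fun ω₀ x₀ => (h.germ ω₀ x₀).mono fun _ q => H _ _ _ q

theorem Tr.map (h : Tr σ) (φ : X → V → W) : Tr fun ω x => φ x (σ ω x) :=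
  fun ω₀ x₀ => (h ω₀ x₀).mono fun _ q => congrArg _ q

theorem Tr.prod (h : Tr σ) (h' : Tr τ) : Tr fun ω x => (σ ω x, τ ω x) :=
  fun ω₀ x₀ => ((h ω₀ x₀).and (h' ω₀ x₀)).mono fun _ q => Prod.ext q.1 q.2

theorem Tr.map₂ (h : Tr σ) (h' : Tr τ) (φ : X → V → W → B) : Tr fun ω x => φ x (σ ω x) (τ ω x) :=
  (h.prod h').map fun x a => φ x a.1 a.2

theorem tr_const (s : X → V) : Tr fun _ : Ω => s := fun _ _ => .of_forall fun _ => rfl

theorem tr_lc {r : Ω → B} (hr : IsLocallyConstant r) (s : B → X → V) : Tr fun ω => s (r ω) :=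
  fun ω₀ _ => ((hr.eventually_eq ω₀).prod_inl _).mono fun _ q => congrArg (s · _) q

theorem tr_pi {ι : Type} [Finite ι] {V : ι → Type} {σ : ∀ i, Ω → X → V i} (h : ∀ i, Tr (σ i)) :
    Tr fun ω x i => σ i ω x :=
  fun ω₀ x₀ => (eventually_all.2 fun i => h i ω₀ x₀).mono fun _ q => funext q

theorem Tr.comp {Ω' X' : Type} [TopologicalSpace Ω'] [TopologicalSpace X'] (h : Tr σ) {a : Ω' → Ω}
    {b : X' → X} (ha : Continuous a) (hb : Continuous b) : Tr fun ω x => σ (a ω) (b x) :=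
  fun ω₀ x₀ => ((ha.tendsto ω₀).prodMap (hb.tendsto x₀)).eventually (h _ _)

theorem tr_of_ev (h : ∀ ω₀ x₀, ∃ σ' : Ω → X → V, Tr σ' ∧
    ∀ᶠ p in 𝓝 ω₀ ×ˢ 𝓝 x₀, σ p.1 p.2 = σ' p.1 p.2) : Tr σ := fun ω₀ x₀ => by
  obtain ⟨σ', a, b⟩ := h ω₀ x₀
  filter_upwards [a ω₀ x₀, b, (ev_lim (P := fun ω x => σ ω x = σ' ω x) (pure_le_nhds _) b).prod_inr _]
    with p c d e
  rw [d, c, e]

theorem Tr.cpt (h : Tr σ) (hK : IsCompact K) (ω₀ : Ω) : ∀ᶠ ω in 𝓝 ω₀, ∀ x ∈ K, σ ω x = σ ω₀ x :=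
  ev_cpt hK fun x _ => h ω₀ x

/-- functionals of the restriction to a compact set are locally constant -/
theorem Tr.lc (h : Tr σ) (hK : IsCompact K) {Ψ : Ω → B}
    (H : ∀ ω ω', (∀ x ∈ K, σ ω x = σ ω' x) → Ψ ω = Ψ ω') : IsLocallyConstant Ψ :=
  (IsLocallyConstant.iff_eventually_eq _).2 fun ω₀ => (h.cpt hK ω₀).mono fun _ q => H _ _ q

theorem lc_mem {A : Set Ω} (hA : IsClopen A) : IsLocallyConstant (· ∈ A) :=
  (IsLocallyConstant.iff_eventually_eq _).2 fun ω₀ => by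
    by_cases q : ω₀ ∈ A
    · filter_upwards [hA.isOpen.mem_nhds q] with ω a using by simp [a, q]
    · filter_upwards [hA.isClosed.isOpen_compl.mem_nhds q] with ω a using by
        simp [show ω ∉ A from a, q]

/-- representatives of the fibres of a locally constant map -/
theorem exists_rep' {q : Ω → B} (h : IsLocallyConstant q) :
    ∃ r : Ω → Ω, IsLocallyConstant r ∧ ∀ ω, q (r ω) = q ω := by
  rcases isEmpty_or_nonempty Ω with _ | _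
  · exact ⟨id, .of_discrete _, fun _ => rfl⟩
  · exact ⟨Function.invFun q ∘ q, h.comp _, fun ω => Function.invFun_eq ⟨ω, rfl⟩⟩

/-- representatives of the local data -/
theorem Tr.rep (h : Tr σ) (hK : IsCompact K) {A : Set Ω} (hA : IsClopen A) : ∃ r : Ω → Ω,
    IsLocallyConstant r ∧ ∀ ω, (r ω ∈ A ↔ ω ∈ A) ∧ ∀ x ∈ K, σ (r ω) x = σ ω x := by
  obtain ⟨r, a, b⟩ := exists_rep' ((lc_mem hA).prodMk (h.lc hK (Ψ := fun ω (x : K) => σ ω x)
    fun _ _ q => funext fun x => q x x.2))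
  exact ⟨r, a, fun ω => ⟨(congrArg Prod.fst (b ω)).to_iff,
    fun x hx => congrFun (congrArg Prod.snd (b ω)) ⟨x, hx⟩⟩⟩

/-- worst case constants -/
theorem Tr.unif [CompactSpace Ω] (h : Tr σ) (hK : IsCompact K) {l : Filter B} {P : Ω → B → Prop}
    (H : ∀ ω ω' t, (∀ x ∈ K, σ ω x = σ ω' x) → P ω t → P ω' t) (hP : ∀ ω, ∀ᶠ t in l, P ω t) :
    ∀ᶠ t in l, ∀ ω, P ω t := by
  obtain ⟨r, a, b⟩ := h.rep hK isClopen_univ
  exact ((eventually_all_finite a.range_finite).2 fun ω _ => hP ω).mono fun t q ω =>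
    H _ _ t (b ω).2 (q _ ⟨ω, rfl⟩)

end Top

variable {n : ℕ} {X : Type} [Mf0 n X] {Γ : Type} [Group Γ] [MulAction Γ X] {F : Fr Γ}
  {V W : Type} {K D D' : Set X} {A : Set F.Ω} {σ τ : F.Ω → X → V}

theorem cont_smul (d : Deck X Γ) (γ : Γ) : Continuous fun x : X => γ • x :=
  (Isometry.of_dist_eq (d.iso γ)).continuous

/-- the action is proper -/
theorem proper (d : Deck X Γ) (hK : IsCompact K) (hD : IsCompact D) :
    {γ : Γ | ∃ x ∈ K, γ • x ∈ D}.Finite := by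
  obtain ⟨o⟩ : Nonempty X := inferInstance
  obtain ⟨R, hR⟩ := (hK.union hD).isBounded.subset_closedBall o
  refine (d.fin o (R + R)).subset fun γ ⟨x, a, b⟩ => (dist_triangle_left _ _ (γ • x)).trans ?_
  rw [d.iso]
  exact add_le_add (hR (.inl a)) (hR (.inr b))

theorem Tr.lb (d : Deck X Γ) (h : Tr σ) (γ : Γ) : Tr (lb γ σ) :=
  h.comp (continuous_const_smul _) (cont_smul d _)

theorem colour0 (F : Fr Γ) {T : Set Γ} (hT : T.Finite) : ∃ (N : ℕ) (c : F.Ω → Fin N),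
    IsLocallyConstant c ∧ ∀ γ ∈ T, ∀ ω, c (γ • ω) = c ω → γ = 1 := by
  have H : ∀ ω₀ : F.Ω, ∃ U, IsClopen U ∧ ω₀ ∈ U ∧ ∀ γ ∈ T, ∀ ω ∈ U, γ • ω ∈ U → γ = 1 := fun ω₀ => by
    have : ∀ᶠ p in 𝓝 ω₀ ×ˢ 𝓝 ω₀, ∀ γ ∈ T, γ • p.1 = p.2 → γ = 1 :=
      (eventually_all_finite hT).2 fun γ _ => by
        by_cases q : γ = 1
        · exact .of_forall fun _ _ => q
        rw [← nhds_prod_eq]
        exact mem_of_superset ((isClosed_eq (continuous_fst.const_smul γ)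
          continuous_snd).isOpen_compl.mem_nhds (x := (ω₀, ω₀)) fun e => q (F.free γ ω₀ e))
            fun p a b => (a b).elim
    obtain ⟨a, ha, b, hb, k⟩ := eventually_prod_iff.1 this
    obtain ⟨O, hO, o1, o2⟩ := mem_nhds_iff.1 (ha.and hb)
    obtain ⟨U, u1, u2, u3⟩ := compact_exists_isClopen_in_isOpen o1 o2
    exact ⟨U, u1, u2, fun γ hγ ω p q => k (hO (u3 p)).1 (hO (u3 q)).2 γ hγ rfl⟩
  choose U u1 u2 u3 using H
  obtain ⟨t, ht⟩ := CompactSpace.elim_nhds_subcover U fun ω => (u1 ω).isOpen.mem_nhds (u2 ω)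
  have ex : ∀ ω, ∃ i : t, ω ∈ U i := fun ω => by
    obtain ⟨i, hi, q⟩ := mem_iUnion₂.1 (ht.ge (mem_univ ω))
    exact ⟨⟨i, hi⟩, q⟩
  have lc : IsLocallyConstant fun ω => (ex ω).choose :=
    (IsLocallyConstant.iff_eventually_eq _).2 fun ω₀ =>
      (eventually_all.2 fun i : t => (lc_mem (u1 i)).eventually_eq ω₀).mono fun ω q => by
        simp only [q]
  refine ⟨_, fun ω => Fintype.equivFin t (ex ω).choose, lc.comp _, fun γ hγ ω e => ?_⟩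
  exact u3 _ γ hγ ω (ex ω).choose_spec ((Equiv.injective _ e) ▸ (ex (γ • ω)).choose_spec)

/-- **colourings** -/
theorem colour (d : Deck X Γ) (F : Fr Γ) (hD : IsCompact D) : ∃ (N : ℕ) (c : F.Ω → Fin N),
    IsLocallyConstant c ∧ ∀ j, IsClopen {ω | c ω = j} ∧ Sep Γ {ω | c ω = j} D := by
  obtain ⟨N, c, a, b⟩ := colour0 F (proper d hD hD)
  exact ⟨N, c, a, fun j => ⟨a.isClopen_fiber j, fun γ ω p x q r s =>
    b γ ⟨x, q, s⟩ ω (Eq.trans r (Eq.symm p))⟩⟩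

theorem Sep.eq (h : Sep Γ A D) {γ δ : Γ} {ω : F.Ω} {x : X} (a : γ⁻¹ • ω ∈ A) (b : γ⁻¹ • x ∈ D)
    (a' : δ⁻¹ • ω ∈ A) (b' : δ⁻¹ • x ∈ D) : γ = δ := by
  have := h (δ⁻¹ * γ) _ a _ b (by simpa [mul_smul] using a') (by simpa [mul_smul] using b')
  exact (inv_mul_eq_one.1 this).symm

theorem Sep.mono (h : Sep Γ A D') {A' : Set F.Ω} (hA : A' ⊆ A) (hD : D ⊆ D') : Sep Γ A' D :=
  fun γ ω a x b c e => h γ ω (hA a) x (hD b) (hA c) (hD e)

theorem mem_un {ω : F.Ω} {x : X} (a : ω ∈ A) (b : x ∈ D) : x ∈ Un Γ A D ω :=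
  ⟨1, by simpa using a, by simpa using b⟩

theorem smul_un (γ : Γ) {ω : F.Ω} {x : X} : γ • x ∈ Un Γ A D (γ • ω) ↔ x ∈ Un Γ A D ω :=
  ⟨fun ⟨δ, a, b⟩ => ⟨γ⁻¹ * δ, by simpa [mul_smul] using a, by simpa [mul_smul] using b⟩,
    fun ⟨δ, a, b⟩ => ⟨γ * δ, by simpa [mul_smul] using a, by simpa [mul_smul] using b⟩⟩

/-- near a point only finitely many translates of a compact set are visible -/
theorem ev_fin (d : Deck X Γ) (hD : IsCompact D) (x₀ : X) :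
    ∃ T : Finset Γ, ∀ᶠ x in 𝓝 x₀, ∀ γ : Γ, γ⁻¹ • x ∈ D → γ ∈ T := by
  obtain ⟨K, hK, k⟩ := exists_compact_mem_nhds x₀
  exact ⟨(proper d hD hK).toFinset, mem_of_superset k fun x a γ b =>
    (Finite.mem_toFinset _).2 ⟨_, b, by simpa using a⟩⟩

theorem ev_un (d : Deck X Γ) (hA : IsClosed A) (hD : IsCompact D) {ω₀ : F.Ω} {x₀ : X}
    (h : x₀ ∉ Un Γ A D ω₀) : ∀ᶠ p in 𝓝 ω₀ ×ˢ 𝓝 x₀, p.2 ∉ Un Γ A D p.1 := by
  obtain ⟨T, hT⟩ := ev_fin d hD x₀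
  have : ∀ᶠ p in 𝓝 ω₀ ×ˢ 𝓝 x₀, ∀ γ ∈ T, ¬(γ⁻¹ • p.1 ∈ A ∧ γ⁻¹ • p.2 ∈ D) :=
    (eventually_all_finset T).2 fun γ _ => by
      rw [← nhds_prod_eq]
      exact ((hA.preimage (continuous_fst.const_smul _)).inter (hD.isClosed.preimage
        ((cont_smul d _).comp continuous_snd))).isOpen_compl.mem_nhds fun q => h ⟨γ, q⟩
  filter_upwards [this, hT.prod_inr _] with p a b ⟨γ, q⟩ using a γ (b γ q.2) q

theorem isClosed_un (d : Deck X Γ) (hA : IsClosed A) (hD : IsCompact D) (ω : F.Ω) :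
    IsClosed (Un Γ A D ω) := ⟨isOpen_iff_mem_nhds.2 fun _ h =>
  ev_lim (P := fun ω x => x ∉ Un Γ A D ω) (pure_le_nhds _) (ev_un d hA hD h)⟩

variable [MulAction Γ V]

/-- **gluing**: the local changes `τ` are made at all translates -/
theorem glue (d : Deck X Γ) (he : Eqv Γ σ) (ht : Tr σ) (hτ : Tr τ) (hA : IsClopen A)
    (hD : IsCompact D) (hDD : D ⊆ interior D') (hs : Sep Γ A D')
    (H : ∀ ω ∈ A, ∀ x ∈ D', x ∉ D → τ ω x = σ ω x) : ∃ σ' : F.Ω → X → V, Eqv Γ σ' ∧ Tr σ' ∧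
      (∀ ω, ∀ x ∉ Un Γ A D ω, σ' ω x = σ ω x) ∧ ∀ ω ∈ A, ∀ x ∈ D', σ' ω x = τ ω x := by
  classical
  have sb := hDD.trans interior_subset
  let σ' : F.Ω → X → V := fun ω x => if h : x ∈ Un Γ A D ω then h.choose • lb h.choose τ ω x
    else σ ω x
  have off : ∀ ω, ∀ x ∉ Un Γ A D ω, σ' ω x = σ ω x := fun ω x h => dif_neg h
  have on : ∀ (γ : Γ) ω x, γ⁻¹ • ω ∈ A → γ⁻¹ • x ∈ D' → σ' ω x = γ • lb γ τ ω x := fun γ ω x a b => by
    by_cases h : x ∈ Un Γ A D ω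
    · rw [← hs.eq h.choose_spec.1 (sb h.choose_spec.2) a b]; exact dif_pos h
    · rw [off ω x h, lb, H _ a _ b fun q => h ⟨γ, a, q⟩, he, smul_inv_smul]
  refine ⟨σ', fun γ ω x => ?_, tr_of_ev fun ω₀ x₀ => ?_, off, fun ω a x b => by
    rw [on 1 ω x (by simpa using a) (by simpa using b)]; simp [lb]⟩
  · by_cases h : x ∈ Un Γ A D ω
    · obtain ⟨δ, a, b⟩ := h
      rw [on δ ω x a (sb b), on (γ * δ) _ _ (by simpa [mul_smul] using a)
        (by simpa [mul_smul] using sb b)]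
      simp [lb, mul_smul]
    · rw [off ω x h, off _ _ fun q => h ((smul_un γ).1 q), he]
  · by_cases h : x₀ ∈ Un Γ A D ω₀
    · obtain ⟨δ, a, b⟩ := h
      refine ⟨_, (hτ.lb d δ).map fun _ v => δ • v, ?_⟩
      filter_upwards [(((continuous_const_smul δ⁻¹).tendsto _).eventually
        (hA.isOpen.mem_nhds a)).prod_inl _, (((cont_smul d δ⁻¹).tendsto _).eventually
          (mem_interior_iff_mem_nhds.1 (hDD b))).prod_inr _] with p a b using on δ _ _ a b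
    · exact ⟨σ, ht, (ev_un d hA.isClosed hD h).mono fun p => off _ _⟩

/-- the result of a simultaneous local operation -/
structure Lo {B : Type} (σ : F.Ω → X → V) (A : Set F.Ω) (D D' : Set X)
    (R : F.Ω → (X → V) → B → Prop) (σ' : F.Ω → X → V) (β : F.Ω → B) : Prop where
  eqv : Eqv Γ σ'
  tr : Tr σ'
  lc : IsLocallyConstant β
  off : ∀ ω, ∀ x ∉ Un Γ A D ω, σ' ω =ᶠ[𝓝 x] σ ω
  on : ∀ ω ∈ A, ∃ ω₀ ∈ A, ∃ s, R ω₀ s (β ω) ∧ (∀ x ∉ D, s x = σ ω₀ x) ∧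
    ∀ x ∈ D', σ ω₀ x = σ ω x ∧ s x = σ' ω x

/-- **simultaneous local operations** -/
theorem locop {B : Type} [Nonempty B] (d : Deck X Γ) (he : Eqv Γ σ) (ht : Tr σ) (hA : IsClopen A)
    (hD : IsCompact D) (hD' : IsCompact D') (hDD : D ⊆ interior D') (hs : Sep Γ A D')
    {R : F.Ω → (X → V) → B → Prop} (H : ∀ ω ∈ A, ∃ s b, (∀ x ∉ D, s x = σ ω x) ∧ R ω s b) :
    ∃ σ' β, Lo σ A D D' R σ' β := by
  obtain ⟨r, a, b⟩ := ht.rep hD' hA
  have H' : ∀ ω, ∃ s b, ω ∈ A → (∀ x ∉ D, s x = σ ω x) ∧ R ω s b := fun ω => by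
    by_cases q : ω ∈ A
    · exact (H ω q).imp fun _ k => k.imp fun _ k _ => k
    · exact ⟨σ ω, Classical.ofNonempty, fun k => (q k).elim⟩
  choose s β h using H'
  obtain ⟨σ', c1, c2, c3, c4⟩ := glue d he ht (tr_lc a s) hA hD hDD hs fun ω p x q k =>
    ((h _ ((b ω).1.2 p)).1 x k).trans ((b ω).2 x q)
  exact ⟨σ', β ∘ r, c1, c2, a.comp β, fun ω x q => mem_of_superset
    ((isClosed_un d hA.isClosed hD ω).isOpen_compl.mem_nhds q) (c3 ω), fun ω p =>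
      ⟨r ω, (b ω).1.2 p, s (r ω), (h _ ((b ω).1.2 p)).2, (h _ ((b ω).1.2 p)).1, fun x q =>
        ⟨(b ω).2 x q, (c4 ω p x q).symm⟩⟩⟩

/-- an invariant property is checked outside the translates and on the basic piece -/
theorem un_cases {P : F.Ω → X → Prop} (hP : ∀ (γ : Γ) ω x, P ω x → P (γ • ω) (γ • x))
    (off : ∀ ω, ∀ x ∉ Un Γ A D ω, P ω x) (on : ∀ ω ∈ A, ∀ x ∈ D, P ω x) (ω : F.Ω) (x : X) :
    P ω x := by
  by_cases h : x ∈ Un Γ A D ω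
  · obtain ⟨γ, a, b⟩ := h
    simpa using hP γ _ _ (on _ a _ b)
  · exact off ω x h

end Vale.Agent.P223F
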